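import Vale.Agent.P237.Polytope

/-!
# The projection body contains a zonotope
-/

namespace Vale.Agent.P237

open MeasureTheory Set Metric Filter Topology
open scoped RealInnerProductSpace ENNReal

variable {n N : ℕ} [NeZero N]

lemma proj_shift_bound (u : Fin N → EuclideanSpace ℝ (Fin (n + 1))) (b : Fin N → ℝ)
    (hb : ∀ i, 0 < b i) (hK : IsCompact (polyH u b)) (e : EuclideanSpace ℝ (Fin (n + 1)))
    (R : EuclideanSpace ℝ (Fin (n + 1)) ≃ₗᵢ[ℝ] EuclideanSpace ℝ (Fin (n + 1)))
    (hR : R e = e0 n) (σ : ℝ) (hσ : |σ| = 1) :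
    0 ≤ ((n + 1 : ℕ) : ℝ) * (∑ i, coneVol u b i * (min 0 (σ * ⟪u i, e⟫) / b i))
      + (volume (etail n '' (R '' polyH u b))).toReal := by
  set K' := R '' polyH u b with hK'
  have hcK' : IsCompact K' := hK.image R.continuous
  have hcv : Convex ℝ K' :=
    (convex_polyH u b).linear_image R.toLinearEquiv.toLinearMap
  have hfin : volume (etail n '' K') ≠ ⊤ :=
    ((hcK'.image (etail n).continuous_of_finiteDimensional).measure_lt_top).ne
  refine first_variation (n + 1) _ _ _ (fun m hm => ?_)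
  set t : ℝ := σ * (1 / 2) ^ m with ht
  have hi := volume_le_inter_shift hcK' hcv t
  have himg : K' ∩ (fun x => x - t • e0 n) ⁻¹' K'
      ⊆ R '' polyH u (fun i => (1 + (1 / 2 : ℝ) ^ m * (min 0 (σ * ⟪u i, e⟫) / b i)) * b i) := by
    rintro _ ⟨⟨x, hx, rfl⟩, ⟨y, hy, hxy⟩⟩
    refine ⟨x, fun i => ?_, rfl⟩
    have hy' : y = x - t • e := by
      apply R.injective
      rw [hxy, map_sub, map_smul, hR]
    have h1 := hy i
    rw [hy', inner_sub_right, real_inner_smul_right] at h1
    have h2 : (1 + (1 / 2 : ℝ) ^ m * (min 0 (σ * ⟪u i, e⟫) / b i)) * b i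
        = b i + (1 / 2 : ℝ) ^ m * min 0 (σ * ⟪u i, e⟫) := by
      have := (hb i).ne'
      field_simp
    change ⟪u i, x⟫ ≤ (1 + (1 / 2 : ℝ) ^ m * (min 0 (σ * ⟪u i, e⟫) / b i)) * b i
    rw [h2, mul_min_of_nonneg _ _ (by positivity), mul_zero, ← min_add_add_left, add_zero]
    refine le_min (hx i) ?_
    rw [show (1 / 2 : ℝ) ^ m * (σ * ⟪u i, e⟫) = t * ⟪u i, e⟫ by rw [ht]; ring]
    linarith
  have hvR : ∀ S : Set (EuclideanSpace ℝ (Fin (n + 1))), volume (R '' S) = volume S := by
    intro S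
    change volume (R.toMeasurableEquiv '' S) = _
    rw [MeasurableEquiv.image_eq_preimage_symm]
    exact (R.symm.measurePreserving).measure_preimage_equiv (f := R.toMeasurableEquiv.symm) _
  have hchain : volume (polyH u b) ≤
      ENNReal.ofReal (∑ i, (1 + (1 / 2 : ℝ) ^ m * (min 0 (σ * ⟪u i, e⟫) / b i)) ^ (n + 1)
        * coneVol u b i) + ENNReal.ofReal ((1 / 2 : ℝ) ^ m) * volume (etail n '' K') := by
    rw [← hvR]
    refine hi.trans (add_le_add ((measure_mono himg).trans ?_) (le_of_eq ?_))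
    · rw [hvR]
      exact volume_polyH_le u b _ hb hm hK
    · rw [ht, abs_mul, hσ, one_mul, abs_of_pos (by positivity : (0 : ℝ) < (1 / 2) ^ m)]
  rw [sum_coneVol u b hK]
  have hnn : 0 ≤ ∑ i, (1 + (1 / 2 : ℝ) ^ m * (min 0 (σ * ⟪u i, e⟫) / b i)) ^ (n + 1)
      * coneVol u b i :=
    Finset.sum_nonneg (fun i _ => mul_nonneg (pow_nonneg (hm i).le _) ENNReal.toReal_nonneg)
  have h3 := ENNReal.toReal_mono (by finiteness) hchain
  rw [ENNReal.toReal_add (by finiteness) (by finiteness), ENNReal.toReal_ofReal hnn,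
    ENNReal.toReal_mul, ENNReal.toReal_ofReal (by positivity)] at h3
  exact h3

lemma zono_subset_projBody (u : Fin N → EuclideanSpace ℝ (Fin (n + 1))) (b : Fin N → ℝ)
    (hb : ∀ i, 0 < b i) (hK : IsCompact (polyH u b)) :
    zono (fun i => (((n + 1 : ℕ) : ℝ) * coneVol u b i / (2 * b i)) • u i)
      ⊆ projBody (polyH u b) := by
  rintro _ ⟨s, hs, rfl⟩ e he
  obtain ⟨R, hR⟩ := exists_align e
  rw [he, one_smul] at hR
  rw [projVolume_eq he R hR hK]
  have hfin : volume (etail n '' (R '' polyH u b)) ≠ ⊤ :=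
    (((hK.image R.continuous).image (etail n).continuous_of_finiteDimensional).measure_lt_top).ne
  rw [← ENNReal.ofReal_toReal hfin]
  refine ENNReal.ofReal_le_ofReal ?_
  have h1 := proj_shift_bound u b hb hK e R hR 1 (by simp)
  have h2 := proj_shift_bound u b hb hK e R hR (-1) (by simp)
  set h := (volume (etail n '' (R '' polyH u b))).toReal
  have hsum : (∑ i, coneVol u b i * (min 0 (1 * ⟪u i, e⟫) / b i))
      + (∑ i, coneVol u b i * (min 0 (-1 * ⟪u i, e⟫) / b i))
      = -∑ i, coneVol u b i * (|⟪u i, e⟫| / b i) := by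
    rw [← Finset.sum_add_distrib, ← Finset.sum_neg_distrib]
    refine Finset.sum_congr rfl (fun i _ => ?_)
    rcases le_total ⟪u i, e⟫ 0 with h' | h'
    · rw [min_eq_right (by linarith), min_eq_left (by linarith), abs_of_nonpos h']; ring
    · rw [min_eq_left (by linarith), min_eq_right (by linarith), abs_of_nonneg h']; ring
  calc ⟪e, ∑ i, s i • (((n + 1 : ℕ) : ℝ) * coneVol u b i / (2 * b i)) • u i⟫
      ≤ ∑ i, ((n + 1 : ℕ) : ℝ) / 2 * (coneVol u b i * (|⟪u i, e⟫| / b i)) := by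
        rw [inner_sum]
        refine Finset.sum_le_sum (fun i _ => ?_)
        rw [real_inner_smul_right, real_inner_smul_right, real_inner_comm]
        have hbi := hb i
        have hV : 0 ≤ coneVol u b i := ENNReal.toReal_nonneg
        have hsi : |s i| ≤ 1 := abs_le.2 (hs i trivial)
        calc s i * (((n + 1 : ℕ) : ℝ) * coneVol u b i / (2 * b i) * ⟪u i, e⟫)
            ≤ |s i| * |((n + 1 : ℕ) : ℝ) * coneVol u b i / (2 * b i) * ⟪u i, e⟫| := by
              rw [← abs_mul]; exact le_abs_self _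
          _ ≤ 1 * |((n + 1 : ℕ) : ℝ) * coneVol u b i / (2 * b i) * ⟪u i, e⟫| :=
              mul_le_mul_of_nonneg_right hsi (abs_nonneg _)
          _ = ((n + 1 : ℕ) : ℝ) / 2 * (coneVol u b i * (|⟪u i, e⟫| / b i)) := by
              rw [one_mul, abs_mul, abs_of_nonneg (by positivity :
                (0 : ℝ) ≤ ((n + 1 : ℕ) : ℝ) * coneVol u b i / (2 * b i))]
              ring
    _ ≤ h := by
        rw [← Finset.mul_sum]
        nlinarith

end Vale.Agent.P237
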