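import Vale.Agent.P237.Defs

/-!
# Slices in the first coordinate
-/

namespace Vale.Agent.P237

open MeasureTheory Set Metric
open scoped RealInnerProductSpace ENNReal

/-- Prepend a coordinate. -/
noncomputable def econs {n : ℕ} (t : ℝ) (y : EuclideanSpace ℝ (Fin n)) :
    EuclideanSpace ℝ (Fin (n + 1)) :=
  WithLp.toLp 2 (Fin.cons t y.ofLp)

/-- Drop the first coordinate. -/
noncomputable def etail (n : ℕ) :
    EuclideanSpace ℝ (Fin (n + 1)) →ₗ[ℝ] EuclideanSpace ℝ (Fin n) where
  toFun x := WithLp.toLp 2 (Fin.tail x.ofLp)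
  map_add' x y := by ext i; simp [Fin.tail]
  map_smul' c x := by ext i; simp [Fin.tail]

/-- The first basis vector. -/
noncomputable def e0 (n : ℕ) : EuclideanSpace ℝ (Fin (n + 1)) := EuclideanSpace.single 0 1

lemma econs_etail {n : ℕ} (x : EuclideanSpace ℝ (Fin (n + 1))) :
    econs (x 0) (etail n x) = x := by
  ext i
  refine Fin.cases ?_ ?_ i <;> simp [econs, etail]

lemma etail_econs {n : ℕ} (t : ℝ) (y : EuclideanSpace ℝ (Fin n)) :
    etail n (econs t y) = y := by
  ext i; simp [econs, etail]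

lemma econs_sub_smul {n : ℕ} (t s : ℝ) (y : EuclideanSpace ℝ (Fin n)) :
    econs t y - s • e0 n = econs (t - s) y := by
  ext i
  refine Fin.cases ?_ (fun j => ?_) i
  · simp [econs, e0]
  · simp [econs, e0, Fin.succ_ne_zero]

lemma econs_add_smul {n : ℕ} (t s : ℝ) (y : EuclideanSpace ℝ (Fin n)) :
    econs t y + s • e0 n = econs (t + s) y := by
  have := econs_sub_smul t (-s) y
  simpa using this

lemma continuous_econs {n : ℕ} (y : EuclideanSpace ℝ (Fin n)) :
    Continuous (fun t : ℝ => econs t y) := by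
  unfold econs
  fun_prop

lemma volume_eq_lintegral_fiber {n : ℕ} {S : Set (EuclideanSpace ℝ (Fin (n + 1)))}
    (hS : MeasurableSet S) :
    volume S = ∫⁻ y : EuclideanSpace ℝ (Fin n), volume ((fun t => econs t y) ⁻¹' S) := by
  set g : EuclideanSpace ℝ (Fin n) × ℝ → EuclideanSpace ℝ (Fin (n + 1)) :=
    fun p => econs p.2 p.1 with hg
  have h1 : MeasurePreserving (Prod.map (WithLp.ofLp : EuclideanSpace ℝ (Fin n) → Fin n → ℝ)
      (id : ℝ → ℝ)) volume volume :=
    (PiLp.volume_preserving_ofLp (Fin n)).prod (MeasurePreserving.id volume)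
  have h2 : MeasurePreserving
      (MeasurableEquiv.piFinSuccAbove (fun _ : Fin (n + 1) => ℝ) 0).symm
      (volume.prod volume) volume :=
    (volume_preserving_piFinSuccAbove (fun _ : Fin (n + 1) => ℝ) 0).symm _
  have h3 : MeasurePreserving g volume volume := by
    have := ((PiLp.volume_preserving_toLp (Fin (n + 1))).comp h2).comp
      (Measure.measurePreserving_swap.comp h1)
    have hge : g = ((WithLp.toLp 2 ∘ ⇑(MeasurableEquiv.piFinSuccAbove
        (fun _ : Fin (n + 1) => ℝ) 0).symm) ∘ Prod.swap ∘ Prod.map WithLp.ofLp id) := by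
      funext p
      simp [hg, econs, MeasurableEquiv.piFinSuccAbove_symm_apply]
      rfl
    rw [hge]
    exact this
  rw [← h3.measure_preimage hS.nullMeasurableSet, Measure.volume_eq_prod,
    Measure.prod_apply (h3.measurable hS)]
  rfl

lemma fiber_eq_Icc {n : ℕ} {K : Set (EuclideanSpace ℝ (Fin (n + 1)))} (hK : IsCompact K)
    (hc : Convex ℝ K) (y : EuclideanSpace ℝ (Fin n)) (hy : y ∈ etail n '' K) :
    ∃ p q, p ≤ q ∧ (fun t => econs t y) ⁻¹' K = Icc p q := by
  set F := (fun t => econs t y) ⁻¹' K with hF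
  have hne : F.Nonempty := by
    obtain ⟨x, hx, rfl⟩ := hy
    exact ⟨x 0, by simpa [hF, econs_etail] using hx⟩
  obtain ⟨R, hR⟩ := hK.isBounded.subset_closedBall 0
  have hb : Bornology.IsBounded F := by
    refine isBounded_closedBall (x := (0 : ℝ)) (r := R) |>.subset (fun t ht => ?_)
    have h1 := hR ht
    rw [mem_closedBall_zero_iff] at h1 ⊢
    refine le_trans ?_ h1
    simpa [econs] using PiLp.norm_apply_le (econs t y) 0
  have hcl : IsClosed F := hK.isClosed.preimage (continuous_econs y)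
  have hcpt : IsCompact F := Metric.isCompact_of_isClosed_isBounded hcl hb
  have hconv : Convex ℝ F := by
    intro a ha b hb' s r hs hr hsr
    have := hc ha hb' hs hr hsr
    change econs (s • a + r • b) y ∈ K
    convert this using 1
    ext i
    refine Fin.cases ?_ (fun j => ?_) i
    · simp [econs]
    · simp [econs, ← add_mul, hsr]
  have := eq_Icc_of_connected_compact (hconv.isConnected hne) hcpt
  exact ⟨sInf F, sSup F, csInf_le_csSup hne hcpt.bddBelow hcpt.bddAbove, this⟩

lemma fiber_empty {n : ℕ} {K : Set (EuclideanSpace ℝ (Fin (n + 1)))}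
    (y : EuclideanSpace ℝ (Fin n)) (hy : y ∉ etail n '' K) :
    (fun t => econs t y) ⁻¹' K = ∅ := by
  ext t
  simp only [mem_preimage, mem_empty_iff_false, iff_false]
  exact fun h => hy ⟨_, h, etail_econs t y⟩

lemma measurableSet_etail_image {n : ℕ} {K : Set (EuclideanSpace ℝ (Fin (n + 1)))}
    (hK : IsCompact K) : MeasurableSet (etail n '' K) :=
  (hK.image (etail n).continuous_of_finiteDimensional).measurableSet

lemma volume_le_inter_shift {n : ℕ} {K : Set (EuclideanSpace ℝ (Fin (n + 1)))}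
    (hK : IsCompact K) (hc : Convex ℝ K) (t : ℝ) :
    volume K ≤ volume (K ∩ (fun x => x - t • e0 n) ⁻¹' K)
      + ENNReal.ofReal |t| * volume (etail n '' K) := by
  have hmeas : MeasurableSet (K ∩ (fun x => x - t • e0 n) ⁻¹' K) :=
    hK.measurableSet.inter ((by fun_prop : Measurable fun x => x - t • e0 n) hK.measurableSet)
  rw [volume_eq_lintegral_fiber hK.measurableSet, volume_eq_lintegral_fiber hmeas,
    ← lintegral_indicator_const (measurableSet_etail_image hK),
    ← lintegral_add_right _ (measurable_const.indicator (measurableSet_etail_image hK))]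
  refine lintegral_mono (fun y => ?_)
  by_cases hy : y ∈ etail n '' K
  · obtain ⟨p, q, hpq, hF⟩ := fiber_eq_Icc hK hc y hy
    have hG : (fun s => econs s y) ⁻¹' (K ∩ (fun x => x - t • e0 n) ⁻¹' K)
        = Icc (max p (p + t)) (min q (q + t)) := by
      ext s
      have h1 : econs s y ∈ K ↔ s ∈ Icc p q := by rw [← hF]; rfl
      have h2 : econs (s - t) y ∈ K ↔ s - t ∈ Icc p q := by rw [← hF]; rfl
      simp only [mem_preimage, mem_inter_iff, econs_sub_smul, h1, h2, mem_Icc, max_le_iff,
        le_min_iff]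
      constructor
      · rintro ⟨⟨a, b⟩, c, d⟩; exact ⟨⟨a, by linarith⟩, b, by linarith⟩
      · rintro ⟨⟨a, c⟩, b, d⟩; exact ⟨⟨a, b⟩, by linarith, by linarith⟩
    rw [hF, hG, Set.indicator_of_mem hy, Real.volume_Icc, Real.volume_Icc]
    refine le_trans (ENNReal.ofReal_le_ofReal ?_) ENNReal.ofReal_add_le
    rcases le_total 0 t with h | h
    · rw [max_eq_right (by linarith), min_eq_left (by linarith), abs_of_nonneg h]; linarith
    · rw [max_eq_left (by linarith), min_eq_right (by linarith), abs_of_nonpos h]; linarith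
  · rw [fiber_empty y hy]
    simp

lemma volume_add_sweep_le {n : ℕ} {K S : Set (EuclideanSpace ℝ (Fin (n + 1)))}
    (hK : IsCompact K) (hc : Convex ℝ K) (hS : MeasurableSet S) {c : ℝ} (hc0 : 0 ≤ c)
    (hsub : ∀ x ∈ K, ∀ s : ℝ, |s| ≤ c → x + s • e0 n ∈ S) :
    volume K + ENNReal.ofReal (2 * c) * volume (etail n '' K) ≤ volume S := by
  rw [volume_eq_lintegral_fiber hK.measurableSet, volume_eq_lintegral_fiber hS,
    ← lintegral_indicator_const (measurableSet_etail_image hK),
    ← lintegral_add_right _ (measurable_const.indicator (measurableSet_etail_image hK))]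
  refine lintegral_mono (fun y => ?_)
  by_cases hy : y ∈ etail n '' K
  · obtain ⟨p, q, hpq, hF⟩ := fiber_eq_Icc hK hc y hy
    have hmem : ∀ s, s ∈ Icc p q → econs s y ∈ K := fun s hs => by
      rw [← hF] at hs; exact hs
    have hsub' : Icc (p - c) (q + c) ⊆ (fun s => econs s y) ⁻¹' S := by
      intro s hs
      obtain ⟨r, hr, hsr⟩ : ∃ r ∈ Icc p q, |s - r| ≤ c := by
        rcases lt_or_ge s p with h | h
        · exact ⟨p, ⟨le_rfl, hpq⟩, by rw [abs_le]; constructor <;> linarith [hs.1]⟩
        rcases lt_or_ge q s with h' | h'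
        · exact ⟨q, ⟨hpq, le_rfl⟩, by rw [abs_le]; constructor <;> linarith [hs.2]⟩
        exact ⟨s, ⟨h, h'⟩, by simpa using hc0⟩
      have := hsub _ (hmem r hr) (s - r) hsr
      rwa [econs_add_smul, add_sub_cancel] at this
    rw [hF, Set.indicator_of_mem hy, Real.volume_Icc,
      ← ENNReal.ofReal_add (by linarith) (by linarith)]
    refine le_trans (le_of_eq ?_) (measure_mono hsub')
    rw [Real.volume_Icc]
    congr 1
    ring
  · rw [fiber_empty y hy]
    simp [hy]

lemma exists_align {n : ℕ} (v : EuclideanSpace ℝ (Fin (n + 1))) :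
    ∃ R : EuclideanSpace ℝ (Fin (n + 1)) ≃ₗᵢ[ℝ] EuclideanSpace ℝ (Fin (n + 1)),
      R v = ‖v‖ • e0 n := by
  have hunit : ∀ u : EuclideanSpace ℝ (Fin (n + 1)), ‖u‖ = 1 →
      ∃ R : EuclideanSpace ℝ (Fin (n + 1)) ≃ₗᵢ[ℝ] EuclideanSpace ℝ (Fin (n + 1)),
        R u = e0 n := by
    intro u hu
    have ho : Orthonormal ℝ (({(0 : Fin (n + 1))} : Set (Fin (n + 1))).domRestrict fun _ => u) :=
      ⟨fun i => hu, fun i j hij => absurd (Subsingleton.elim i j) hij⟩
    obtain ⟨b, hb⟩ := ho.exists_orthonormalBasis_extension_of_card_eq (v := fun _ => u)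
      finrank_euclideanSpace
    refine ⟨b.repr, ?_⟩
    rw [← hb 0 rfl, OrthonormalBasis.repr_self]
    rfl
  rcases eq_or_ne v 0 with rfl | hv
  · exact ⟨LinearIsometryEquiv.refl ℝ _, by simp⟩
  obtain ⟨R, hR⟩ := hunit (‖v‖⁻¹ • v) (by simp [norm_smul, hv])
  refine ⟨R, ?_⟩
  rw [map_smul] at hR
  rw [← hR, smul_smul, mul_inv_cancel₀ (norm_ne_zero_iff.2 hv), one_smul]

lemma projVolume_eq {n : ℕ} {u : EuclideanSpace ℝ (Fin (n + 1))} (hu : ‖u‖ = 1)
    (R : EuclideanSpace ℝ (Fin (n + 1)) ≃ₗᵢ[ℝ] EuclideanSpace ℝ (Fin (n + 1)))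
    (hR : R u = e0 n) {K : Set (EuclideanSpace ℝ (Fin (n + 1)))} (hK : IsCompact K) :
    projVolume K u = volume (etail n '' (R '' K)) := by
  set T := etail n '' (R '' K) with hT
  have hcomp : IsCompact (R '' K) := hK.image R.continuous
  have hinner : ∀ x, ⟪u, x⟫ = R x 0 := fun x => by
    rw [← LinearIsometryEquiv.inner_map_map R u x, hR]
    simp [e0, EuclideanSpace.inner_single_left]
  have hmap : ∀ x s, R (x - ⟪u, x⟫ • u + s • u) = econs s (etail n (R x)) := by
    intro x s
    rw [map_add, map_sub, map_smul, map_smul, hR, hinner]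
    conv_lhs => arg 1; arg 1; rw [← econs_etail (R x)]
    rw [econs_sub_smul, sub_self, econs_add_smul, zero_add]
  have himg : R '' projCylinder K u = {z | etail n z ∈ T ∧ z 0 ∈ Icc (0 : ℝ) 1} := by
    ext z
    constructor
    · rintro ⟨_, ⟨x, hx, s, hs, rfl⟩, rfl⟩
      rw [hmap]
      refine ⟨?_, by simpa [econs] using hs⟩
      rw [etail_econs]
      exact ⟨R x, ⟨x, hx, rfl⟩, rfl⟩
    · rintro ⟨⟨_, ⟨x, hx, rfl⟩, hxz⟩, hz⟩
      refine ⟨_, ⟨x, hx, z 0, hz, rfl⟩, ?_⟩
      rw [hmap, hxz, econs_etail]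
  have hmeas : MeasurableSet {z : EuclideanSpace ℝ (Fin (n + 1)) |
      etail n z ∈ T ∧ z 0 ∈ Icc (0 : ℝ) 1} :=
    ((measurableSet_etail_image hcomp).preimage
      (etail n).continuous_of_finiteDimensional.measurable).inter
      (measurableSet_Icc.preimage (by fun_prop : Continuous fun z : EuclideanSpace ℝ (Fin (n + 1)) =>
        z 0).measurable)
  have hvR : volume (R '' projCylinder K u) = projVolume K u := by
    change volume (R.toMeasurableEquiv '' _) = _
    rw [MeasurableEquiv.image_eq_preimage_symm]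
    exact (R.symm.measurePreserving).measure_preimage_equiv (f := R.toMeasurableEquiv.symm) _
  rw [← hvR, himg, volume_eq_lintegral_fiber hmeas,
    ← lintegral_indicator_one (measurableSet_etail_image hcomp)]
  refine lintegral_congr (fun y => ?_)
  by_cases hy : y ∈ T
  · rw [Set.indicator_of_mem hy, Pi.one_apply]
    have : (fun t => econs t y) ⁻¹' {z : EuclideanSpace ℝ (Fin (n + 1)) |
        etail n z ∈ T ∧ z 0 ∈ Icc (0 : ℝ) 1} = Icc 0 1 := by
      ext t; simp [etail_econs, hy]; simp [econs]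
    rw [this, Real.volume_Icc]
    simp
  · rw [Set.indicator_of_notMem hy]
    have : (fun t => econs t y) ⁻¹' {z : EuclideanSpace ℝ (Fin (n + 1)) |
        etail n z ∈ T ∧ z 0 ∈ Icc (0 : ℝ) 1} = ∅ := by
      ext t; simp [etail_econs, hy]
    rw [this, measure_empty]

lemma orthogonalProjection_volume {n : ℕ} {u : EuclideanSpace ℝ (Fin (n + 1))} (hu : ‖u‖ = 1)
    (R : EuclideanSpace ℝ (Fin (n + 1)) ≃ₗᵢ[ℝ] EuclideanSpace ℝ (Fin (n + 1)))
    (hR : R u = e0 n) {K : Set (EuclideanSpace ℝ (Fin (n + 1)))} :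
    volume ((ℝ ∙ u)ᗮ.orthogonalProjectionOnto '' K) = volume (etail n '' (R '' K)) := by
  have hRs : R.symm (e0 n) = u := by rw [← hR]; simp
  have he0 : ‖e0 n‖ = 1 := by simp [e0]
  let φ : EuclideanSpace ℝ (Fin n) →ₗᵢ[ℝ] (ℝ ∙ u)ᗮ :=
    { toFun := fun z => ⟨R.symm (econs 0 z), by
        rw [Submodule.mem_orthogonal_singleton_iff_inner_right, ← hRs,
          LinearIsometryEquiv.inner_map_map]
        simp [e0, econs, EuclideanSpace.inner_single_left]⟩
      map_add' := fun a b => by
        ext1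
        simp only [Submodule.coe_add, ← map_add]
        congr 1
        ext i
        refine Fin.cases ?_ (fun j => ?_) i <;> simp [econs]
      map_smul' := fun c a => by
        ext1
        simp only [SetLike.val_smul, RingHom.id_apply, ← map_smul]
        congr 1
        ext i
        refine Fin.cases ?_ (fun j => ?_) i <;> simp [econs]
      norm_map' := fun z => by
        change ‖R.symm (econs 0 z)‖ = ‖z‖
        rw [LinearIsometryEquiv.norm_map, EuclideanSpace.norm_eq, EuclideanSpace.norm_eq,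
          Fin.sum_univ_succ]
        simp [econs] }
  have hfr : Module.finrank ℝ (ℝ ∙ u)ᗮ = n := by
    have : Fact (Module.finrank ℝ (EuclideanSpace ℝ (Fin (n + 1))) = n + 1) :=
      ⟨finrank_euclideanSpace_fin⟩
    exact Submodule.finrank_orthogonal_span_singleton (by
      intro h; rw [h, norm_zero] at hu; exact zero_ne_one hu)
  let Φ := φ.toLinearIsometryEquiv (by rw [hfr, finrank_euclideanSpace_fin])
  have himg : (ℝ ∙ u)ᗮ.orthogonalProjectionOnto '' K = Φ '' (etail n '' (R '' K)) := by
    rw [Set.image_image, Set.image_image]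
    refine Set.image_congr (fun x _ => ?_)
    apply Subtype.ext
    change _ = R.symm (econs 0 (etail n (R x)))
    rw [Submodule.coe_orthogonalProjectionOnto_apply, Submodule.starProjection_orthogonal_val,
      Submodule.starProjection_unit_singleton ℝ hu]
    have h1 : ⟪u, x⟫ = R x 0 := by
      rw [← LinearIsometryEquiv.inner_map_map R u x, hR]
      simp [e0, EuclideanSpace.inner_single_left]
    have h2 : econs 0 (etail n (R x)) = R x - (R x 0) • e0 n := by
      conv_rhs => arg 1; rw [← econs_etail (R x)]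
      rw [econs_sub_smul, sub_self]
    rw [h2, map_sub, map_smul, hRs, h1]
    simp
  rw [himg]
  change volume (Φ.toMeasurableEquiv '' _) = _
  rw [MeasurableEquiv.image_eq_preimage_symm]
  exact (Φ.symm.measurePreserving).measure_preimage_equiv (f := Φ.toMeasurableEquiv.symm) _

theorem projVolume_eq_orthogonalProjection {n : ℕ} {u : EuclideanSpace ℝ (Fin (n + 1))}
    (hu : ‖u‖ = 1) {K : Set (EuclideanSpace ℝ (Fin (n + 1)))} (hK : IsCompact K) :
    projVolume K u = volume ((ℝ ∙ u)ᗮ.orthogonalProjectionOnto '' K) := by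
  obtain ⟨R, hR⟩ := exists_align u
  rw [hu, one_smul] at hR
  rw [projVolume_eq hu R hR hK, orthogonalProjection_volume hu R hR]

end Vale.Agent.P237
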