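import Mathlib

/-!
# Projection bodies
-/

namespace Vale.Agent.P237

open MeasureTheory
open scoped RealInnerProductSpace

/-- The right cylinder of height one over the orthogonal projection of `K` on the
hyperplane `u⊥`, for a unit vector `u`. -/
def projCylinder {n : ℕ} (K : Set (EuclideanSpace ℝ (Fin n)))
    (u : EuclideanSpace ℝ (Fin n)) : Set (EuclideanSpace ℝ (Fin n)) :=
  {z | ∃ x ∈ K, ∃ s ∈ Set.Icc (0 : ℝ) 1, z = x - ⟪u, x⟫ • u + s • u}

/-- The `(n-1)`-volume of the orthogonal projection of `K` on `u⊥`, as the volume of the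
cylinder of height one over it. -/
noncomputable def projVolume {n : ℕ} (K : Set (EuclideanSpace ℝ (Fin n)))
    (u : EuclideanSpace ℝ (Fin n)) : ENNReal :=
  volume (projCylinder K u)

/-- The projection body: all `y` with `⟪u, y⟫ ≤ projVolume K u` for every unit vector `u`. -/
def projBody {n : ℕ} (K : Set (EuclideanSpace ℝ (Fin n))) : Set (EuclideanSpace ℝ (Fin n)) :=
  {y | ∀ u : EuclideanSpace ℝ (Fin n), ‖u‖ = 1 → ENNReal.ofReal ⟪u, y⟫ ≤ projVolume K u}

/-- The volume of the Euclidean unit ball. -/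
noncomputable def unitBallVol (m : ℕ) : ℝ :=
  (volume (Metric.ball (0 : EuclideanSpace ℝ (Fin m)) 1)).toReal

end Vale.Agent.P237
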