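import Vale.Agent.P237.Polytope

/-!
# Volume of a circumscribed polytope with few facets
-/

namespace Vale.Agent.P237

open MeasureTheory Set Metric Filter Topology
open scoped RealInnerProductSpace ENNReal Pointwise

variable {m N : ℕ}

lemma gauss_lintegral (c : EuclideanSpace ℝ (Fin m)) :
    ∫⁻ y : EuclideanSpace ℝ (Fin m), ENNReal.ofReal (Real.exp (-(1 / 2) * ‖y - c‖ ^ 2))
      = ENNReal.ofReal ((2 * Real.pi) ^ ((m : ℝ) / 2)) := by
  rw [lintegral_sub_right_eq_self
    (fun y : EuclideanSpace ℝ (Fin m) => ENNReal.ofReal (Real.exp (-(1 / 2) * ‖y‖ ^ 2))) c]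
  have hI : ∫ y : EuclideanSpace ℝ (Fin m), Real.exp (-(1 / 2) * ‖y‖ ^ 2)
      = (2 * Real.pi) ^ ((m : ℝ) / 2) := by
    rw [GaussianFourier.integral_rexp_neg_mul_sq_norm (by norm_num : (0 : ℝ) < 1 / 2),
      finrank_euclideanSpace_fin]
    congr 1
    ring
  rw [← hI]
  refine (ofReal_integral_eq_lintegral_ofReal ?_ (Filter.Eventually.of_forall fun y =>
    (Real.exp_pos _).le)).symm
  refine MeasureTheory.Integrable.of_integral_ne_zero ?_
  rw [hI]
  positivity

lemma polyH_volume_ge (v : Fin N → EuclideanSpace ℝ (Fin m)) (hv : ∀ i, ‖v i‖ ≤ 1) {r : ℝ}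
    (hr : 0 < r) :
    ENNReal.ofReal ((2 * Real.pi) ^ ((m : ℝ) / 2) * (1 - N * Real.exp (-r ^ 2 / 2)) / r ^ m)
      ≤ volume (polyH v 1) := by
  set S := polyH v (fun _ => r) with hS
  have hSr : S = r • polyH v 1 := by
    ext y
    rw [mem_smul_set_iff_inv_smul_mem₀ hr.ne']
    simp only [hS, polyH, Set.mem_ofPred_eq, real_inner_smul_right, Pi.one_apply,
      inv_mul_le_iff₀ hr, mul_one]
  have hvol : volume S = ENNReal.ofReal (r ^ m) * volume (polyH v 1) := by
    rw [hSr, Measure.addHaar_smul_of_nonneg _ hr.le, finrank_euclideanSpace_fin]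
  set G := (2 * Real.pi) ^ ((m : ℝ) / 2) with hG
  have hG0 : 0 < G := by positivity
  have hSm : MeasurableSet S := (isClosed_polyH _ _).measurableSet
  have hind : Measurable (S.indicator (1 : EuclideanSpace ℝ (Fin m) → ℝ≥0∞)) :=
    measurable_const.indicator hSm
  have hfm : Measurable (fun y : EuclideanSpace ℝ (Fin m) =>
      ENNReal.ofReal (Real.exp (-(1 / 2) * ‖y‖ ^ 2))) := by fun_prop
  have hsplit : ∀ y : EuclideanSpace ℝ (Fin m),
      ENNReal.ofReal (Real.exp (-(1 / 2) * ‖y‖ ^ 2)) ≤ S.indicator 1 y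
        + ∑ i, ENNReal.ofReal (Real.exp (-r ^ 2 / 2))
          * ENNReal.ofReal (Real.exp (-(1 / 2) * ‖y - r • v i‖ ^ 2)) := by
    intro y
    by_cases hy : y ∈ S
    · refine le_add_of_le_of_nonneg ?_ zero_le
      rw [indicator_of_mem hy, Pi.one_apply, ENNReal.ofReal_le_one, Real.exp_le_one_iff]
      nlinarith [sq_nonneg ‖y‖]
    · rw [indicator_of_notMem hy, zero_add]
      simp only [hS, polyH, Set.mem_ofPred_eq, not_forall, not_le] at hy
      obtain ⟨i, hi⟩ := hy
      refine le_trans ?_ (Finset.single_le_sum (fun _ _ => zero_le) (Finset.mem_univ i))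
      rw [← ENNReal.ofReal_mul (Real.exp_pos _).le, ← Real.exp_add]
      refine ENNReal.ofReal_le_ofReal (Real.exp_le_exp.2 ?_)
      rw [norm_sub_sq_real, real_inner_smul_right, norm_smul, Real.norm_of_nonneg hr.le,
        real_inner_comm]
      have h1 : (r * ‖v i‖) ^ 2 ≤ r ^ 2 :=
        pow_le_pow_left₀ (by positivity) (mul_le_of_le_one_right hr.le (hv i)) 2
      have h2 : r * r ≤ r * ⟪v i, y⟫ := mul_le_mul_of_nonneg_left hi.le hr.le
      nlinarith
  have hmain : ENNReal.ofReal G
      ≤ volume S + ENNReal.ofReal (N * Real.exp (-r ^ 2 / 2) * G) := by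
    have h0 := gauss_lintegral (0 : EuclideanSpace ℝ (Fin m))
    simp only [sub_zero] at h0
    rw [← h0]
    refine (lintegral_mono hsplit).trans ?_
    rw [lintegral_add_left hind, lintegral_indicator_one hSm,
      lintegral_finsetSum]
    · refine add_le_add le_rfl (le_of_eq ?_)
      have : ∀ i : Fin N, ∫⁻ y : EuclideanSpace ℝ (Fin m), ENNReal.ofReal (Real.exp (-r ^ 2 / 2))
          * ENNReal.ofReal (Real.exp (-(1 / 2) * ‖y - r • v i‖ ^ 2))
          = ENNReal.ofReal (Real.exp (-r ^ 2 / 2) * G) := by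
        intro i
        rw [lintegral_const_mul' _ _ ENNReal.ofReal_ne_top, gauss_lintegral,
          ← ENNReal.ofReal_mul (Real.exp_pos _).le]
      simp only [this, Finset.sum_const, Finset.card_univ, Fintype.card_fin, nsmul_eq_mul]
      rw [← ENNReal.ofReal_natCast, ← ENNReal.ofReal_mul (Nat.cast_nonneg _)]
      congr 1
      ring
    · intro i _
      fun_prop
  rw [hvol] at hmain
  rcases eq_or_ne (volume (polyH v 1)) ⊤ with htop | htop
  · rw [htop]; exact le_top
  rw [← ENNReal.ofReal_toReal htop] at hmain ⊢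
  rw [← ENNReal.ofReal_mul (by positivity), ← ENNReal.ofReal_add (by positivity) (by positivity),
    ENNReal.ofReal_le_ofReal_iff (by positivity)] at hmain
  refine ENNReal.ofReal_le_ofReal ?_
  rw [div_le_iff₀ (by positivity)]
  nlinarith

end Vale.Agent.P237
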