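import Vale.Agent.P237.Position

/-!
# Comparison of the projection body with a circumscribed body
-/

namespace Vale.Agent.P237

open MeasureTheory Set Metric Filter Topology
open scoped RealInnerProductSpace ENNReal NNReal

variable {n N : ℕ} [NeZero N]

lemma minkowski_pow (u : Fin N → EuclideanSpace ℝ (Fin (n + 1))) (b : Fin N → ℝ)
    (hb : ∀ i, 0 < b i) (hK : IsCompact (polyH u b)) (hv : 0 < (volume (polyH u b)).toReal)
    (L : Set (EuclideanSpace ℝ (Fin (n + 1)))) (c : Fin N → ℝ)
    (hLc : ∀ x ∈ L, ∀ i, ⟪u i, x⟫ ≤ c i) :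
    ENNReal.ofReal ((volume (polyH u b)).toReal ^ n) * volume L
      ≤ ENNReal.ofReal ((∑ i, coneVol u b i * (c i / b i)) ^ (n + 1)) := by
  set vK := (volume (polyH u b)).toReal with hvK
  set X := ∑ i, coneVol u b i * (c i / b i) with hX
  by_contra hlt
  push Not at hlt
  have hlt' : ENNReal.ofReal (X ^ (n + 1) / vK ^ n) < volume L := by
    by_contra hc
    push Not at hc
    refine absurd hlt (not_lt.2 ?_)
    calc ENNReal.ofReal (vK ^ n) * volume L
        ≤ ENNReal.ofReal (vK ^ n) * ENNReal.ofReal (X ^ (n + 1) / vK ^ n) :=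
          mul_le_mul_right hc _
      _ = ENNReal.ofReal (X ^ (n + 1)) := by
          rw [← ENNReal.ofReal_mul (pow_nonneg hv.le _),
            mul_div_cancel₀ _ (pow_ne_zero _ hv.ne')]
  obtain ⟨r, hr1, hr2⟩ := ENNReal.lt_iff_exists_nnreal_btwn.1 hlt'
  have hr : X ^ (n + 1) / vK ^ n < (r : ℝ) := by
    rw [← ENNReal.ofReal_coe_nnreal] at hr1
    exact ENNReal.ofReal_lt_ofReal_iff'.1 hr1 |>.1
  have hr0 : 0 < (r : ℝ) := by
    rw [← ENNReal.ofReal_coe_nnreal] at hr1
    exact (ENNReal.ofReal_lt_ofReal_iff'.1 hr1).2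
  set s : ℝ := (vK / r) ^ (((n + 1 : ℕ) : ℝ)⁻¹) with hs
  have hs0 : 0 < s := by positivity
  have hsn : s ^ (n + 1) = vK / r := Real.rpow_inv_natCast_pow (by positivity) (Nat.succ_ne_zero n)
  have h := minkowski_first u b hb hK L c hLc s hs0 (by
    rw [hsn, ← ENNReal.ofReal_toReal hK.measure_lt_top.ne, ← hvK]
    refine le_trans (le_of_eq ?_) (mul_le_mul_right hr2.le _)
    rw [← ENNReal.ofReal_coe_nnreal, ← ENNReal.ofReal_mul (by positivity),
      div_mul_cancel₀ _ hr0.ne']) (Nat.succ_pos n)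
  have h2 := pow_le_pow_left₀ hv.le h (n + 1)
  rw [mul_pow, hsn, ← hX, div_mul_eq_mul_div, le_div_iff₀ hr0] at h2
  rw [div_lt_iff₀ (pow_pos hv n)] at hr
  have h3 : vK * X ^ (n + 1) < vK * ((r : ℝ) * vK ^ n) := mul_lt_mul_of_pos_left hr hv
  have h4 : vK * ((r : ℝ) * vK ^ n) = vK ^ (n + 1) * r := by rw [pow_succ]; ring
  linarith

omit [NeZero N] in
lemma volume_toReal_pos (u : Fin N → EuclideanSpace ℝ (Fin (n + 1))) (b : Fin N → ℝ)
    (hb : ∀ i, 0 < b i) (hK : IsCompact (polyH u b)) : 0 < (volume (polyH u b)).toReal := by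
  refine ENNReal.toReal_pos ?_ hK.measure_lt_top.ne
  have hopen : IsOpen {x : EuclideanSpace ℝ (Fin (n + 1)) | ∀ i, ⟪u i, x⟫ < b i} := by
    rw [Set.ofPred_forall]
    exact isOpen_iInter_of_finite (fun i => isOpen_lt (by fun_prop) continuous_const)
  have hpos := hopen.measure_pos volume ⟨0, fun i => by simpa using hb i⟩
  exact (hpos.trans_le (measure_mono (fun x hx i => (hx i).le))).ne'

lemma span_of_compact (u : Fin N → EuclideanSpace ℝ (Fin (n + 1))) (b : Fin N → ℝ)
    (hb : ∀ i, 0 < b i) (hK : IsCompact (polyH u b))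
    (x : EuclideanSpace ℝ (Fin (n + 1))) (hx : x ≠ 0) :
    ∃ i, coneVol u b i * ⟪u i, x⟫ ≠ 0 := by
  classical
  by_contra hall
  push Not at hall
  have hv := volume_toReal_pos u b hb hK
  set B := volume (closedBall (0 : EuclideanSpace ℝ (Fin (n + 1))) 1) with hB
  have hB0 : B ≠ 0 := (measure_closedBall_pos volume _ one_pos).ne'
  have hBt : B ≠ ⊤ := measure_closedBall_lt_top.ne
  set d := (3 / ‖x‖) • x with hd
  have hdn : ‖d‖ = 3 := by
    rw [hd, norm_smul, norm_div, norm_norm, div_mul_cancel₀ _ (norm_ne_zero_iff.2 hx)]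
    norm_num
  set C := ∑ i, coneVol u b i * (‖u i‖ / b i) with hC
  have key : ∀ M : ℕ, (M : ℝ) * B.toReal * (volume (polyH u b)).toReal ^ n ≤ C ^ (n + 1) := by
    intro M
    set L := ⋃ k ∈ Finset.range M, closedBall ((k : ℝ) • d) 1 with hL
    have hLv : volume L = M * B := by
      rw [hL, measure_biUnion_finset]
      · simp [Measure.addHaar_closedBall_center, hB]
      · intro k _ l _ hkl
        refine Metric.closedBall_disjoint_closedBall ?_
        rw [dist_eq_norm, ← sub_smul, norm_smul, hdn, Real.norm_eq_abs]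
        have : (1 : ℝ) ≤ |(k : ℝ) - l| := by
          have h1 : (1 : ℤ) ≤ |(k : ℤ) - l| :=
            Int.one_le_abs (sub_ne_zero.2 (by exact_mod_cast hkl))
          exact_mod_cast h1
        linarith
      · exact fun k _ => measurableSet_closedBall
    have h := minkowski_pow u b hb hK hv L
      (fun i => ‖u i‖ + (M : ℝ) * |⟪u i, d⟫|) (by
        intro y hy i
        simp only [hL, mem_iUnion, Finset.mem_range] at hy
        obtain ⟨k, hk, hy⟩ := hy
        rw [mem_closedBall, dist_eq_norm] at hy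
        have h1 : ⟪u i, y⟫ = ⟪u i, y - (k : ℝ) • d⟫ + (k : ℝ) * ⟪u i, d⟫ := by
          rw [inner_sub_right, real_inner_smul_right]; ring
        rw [h1]
        refine add_le_add ?_ ?_
        · refine (real_inner_le_norm _ _).trans ?_
          exact mul_le_of_le_one_right (norm_nonneg _) hy
        · exact (mul_le_mul_of_nonneg_left (le_abs_self _) (Nat.cast_nonneg k)).trans
            (mul_le_mul_of_nonneg_right (by exact_mod_cast hk.le) (abs_nonneg _)))
    have hX : ∑ i, coneVol u b i * ((‖u i‖ + (M : ℝ) * |⟪u i, d⟫|) / b i) = C := by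
      refine Finset.sum_congr rfl (fun i _ => ?_)
      rcases mul_eq_zero.1 (hall i) with h0 | h0
      · simp [h0]
      · simp [hd, real_inner_smul_right, h0]
    have hC0 : 0 ≤ C := Finset.sum_nonneg (fun i _ =>
      mul_nonneg ENNReal.toReal_nonneg (div_nonneg (norm_nonneg _) (hb i).le))
    rw [hLv, hX] at h
    have h2 := ENNReal.toReal_mono ENNReal.ofReal_ne_top h
    rw [ENNReal.toReal_mul, ENNReal.toReal_mul, ENNReal.toReal_natCast,
      ENNReal.toReal_ofReal (by positivity), ENNReal.toReal_ofReal (by positivity)] at h2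
    linarith
  have hpos : 0 < B.toReal * (volume (polyH u b)).toReal ^ n :=
    mul_pos (ENNReal.toReal_pos hB0 hBt) (pow_pos hv n)
  obtain ⟨M, hM⟩ := exists_nat_gt (C ^ (n + 1) / (B.toReal * (volume (polyH u b)).toReal ^ n))
  rw [div_lt_iff₀ hpos] at hM
  have := key M
  linarith

theorem projBody_ge (u : Fin N → EuclideanSpace ℝ (Fin (n + 1))) (b : Fin N → ℝ)
    (hb : ∀ i, 0 < b i) (hK : IsCompact (polyH u b)) :
    ∃ v : Fin N → EuclideanSpace ℝ (Fin (n + 1)), (∀ i, ‖v i‖ ≤ 1) ∧
      ENNReal.ofReal ((volume (polyH u b)).toReal ^ n) * volume (polyH v 1)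
        ≤ volume (projBody (polyH u b)) := by
  have hv := volume_toReal_pos u b hb hK
  set β : Fin N → ℝ := fun i => ((n + 1 : ℕ) : ℝ) * coneVol u b i / (2 * b i) with hβdef
  have hV0 : ∀ i, 0 ≤ coneVol u b i := fun i => ENNReal.toReal_nonneg
  have hβ : ∀ i, 0 ≤ β i := fun i => by have := hb i; have := hV0 i; positivity
  obtain ⟨A, hdet, hM⟩ := exists_balanced (Nat.succ_pos n) β hβ u (fun x hx => by
    obtain ⟨i, hi⟩ := span_of_compact u b hb hK x hx
    refine ⟨i, fun h => hi ?_⟩
    have := hb i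
    simp only [hβdef] at h
    field_simp at h
    simpa [mul_assoc, Nat.cast_add_one_ne_zero] using h)
  set w : Fin N → EuclideanSpace ℝ (Fin (n + 1)) := fun i => rowAct A (u i) with hw
  refine ⟨fun i => ‖w i‖⁻¹ • w i, fun i => by
    rcases eq_or_ne (w i) 0 with h | h <;> simp [norm_smul, h], ?_⟩
  set A' : Fin (n + 1) → EuclideanSpace ℝ (Fin (n + 1)) :=
    fun k => WithLp.toLp 2 (fun j => A j k) with hA'
  have hdet' : LinearMap.det (rowAct A') = 1 := by
    rw [det_rowAct, show rowMatrix A' = (rowMatrix A).transpose from rfl, Matrix.det_transpose, hdet]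
  have hadj : ∀ x y, ⟪x, rowAct A' y⟫ = ⟪rowAct A x, y⟫ := by
    intro x y
    simp only [PiLp.inner_apply, rowAct, LinearMap.coe_mk, AddHom.coe_mk, RCLike.inner_apply,
      conj_trivial, hA', Finset.sum_mul, Finset.mul_sum]
    rw [Finset.sum_comm]
    exact Finset.sum_congr rfl (fun k _ => Finset.sum_congr rfl (fun j _ => by ring))
  set L0 := polyH (fun i => ‖w i‖⁻¹ • w i) 1 with hL0
  have hL : ∀ x ∈ rowAct A' '' L0, ∀ i, ⟪u i, x⟫ ≤ ‖w i‖ := by
    rintro _ ⟨y, hy, rfl⟩ i
    rw [hadj]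
    change ⟪w i, y⟫ ≤ ‖w i‖
    rcases eq_or_ne (w i) 0 with h | h
    · simp [h]
    · have := hy i
      rw [real_inner_smul_left, Pi.one_apply, inv_mul_le_iff₀ (norm_pos_iff.2 h), mul_one] at this
      exact this
  have hmink := minkowski_pow u b hb hK hv (rowAct A' '' L0) (fun i => ‖w i‖) hL
  rw [Measure.addHaar_image_linearMap, hdet', abs_one, ENNReal.ofReal_one, one_mul] at hmink
  refine hmink.trans ?_
  have hT : 2 * totalLen β u A / ((n + 1 : ℕ) : ℝ) = ∑ i, coneVol u b i * (‖w i‖ / b i) := by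
    simp only [totalLen, hβdef, Finset.mul_sum, Finset.sum_div]
    refine Finset.sum_congr rfl (fun i _ => ?_)
    have := (hb i).ne'
    simp only [hw]
    field_simp
  have hg : momMatrix (fun i => (β i * ‖w i‖)⁻¹) (fun i => β i • w i)
      = momMatrix (fun i => β i / ‖w i‖) w := by
    unfold momMatrix
    refine Finset.sum_congr rfl (fun i _ => ?_)
    ext a c
    simp only [Matrix.smul_apply, Matrix.vecMulVec_apply, WithLp.ofLp_smul, Pi.smul_apply,
      smul_eq_mul]
    rcases eq_or_ne (β i) 0 with h | h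
    · simp [h]
    · field_simp
  have hz := zono_volume_ge (n + 1) N (fun i => (β i * ‖w i‖)⁻¹) (fun i => β i • w i)
    (fun i => ⟨by have := hβ i; positivity, by
      rw [norm_smul, Real.norm_of_nonneg (hβ i)]
      exact inv_mul_le_one⟩)
  rw [hg, hM, Matrix.det_diagonal, Finset.prod_const, Finset.card_univ, Fintype.card_fin,
    ← mul_pow, ← mul_div_assoc, hT] at hz
  refine hz.trans ?_
  have himg : zono (fun i => β i • w i) = rowAct A '' zono (fun i => β i • u i) := by
    rw [image_zono]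
    simp [hw]
  rw [himg, Measure.addHaar_image_linearMap, det_rowAct, hdet, abs_one, ENNReal.ofReal_one, one_mul]
  exact measure_mono (zono_subset_projBody u b hb hK)

end Vale.Agent.P237
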