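import Vale.Agent.P237.Defs

/-!
# The numerical comparison
-/

namespace Vale.Agent.P237

open MeasureTheory Real

lemma unitBallVol_eq {m : ℕ} (hm : 0 < m) :
    unitBallVol m = √π ^ m / Gamma ((m : ℝ) / 2 + 1) := by
  have : Nonempty (Fin m) := ⟨⟨0, hm⟩⟩
  rw [unitBallVol, EuclideanSpace.volume_ball, Fintype.card_fin, ENNReal.ofReal_one, one_pow,
    one_mul, ENNReal.toReal_ofReal]
  have : 0 < Gamma ((m : ℝ) / 2 + 1) := Gamma_pos_of_pos (by positivity)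
  positivity

lemma Gamma_sq_le {a : ℝ} (ha : 0 < a) : Gamma (a + 1 / 2) ^ 2 ≤ a * Gamma a ^ 2 := by
  have h := convexOn_log_Gamma.2 (Set.mem_Ioi.2 ha) (Set.mem_Ioi.2 (by linarith : 0 < a + 1))
    (by norm_num : (0 : ℝ) ≤ 1 / 2) (by norm_num : (0 : ℝ) ≤ 1 / 2) (by norm_num)
  simp only [smul_eq_mul, Function.comp_apply] at h
  rw [show (1 / 2 : ℝ) * a + 1 / 2 * (a + 1) = a + 1 / 2 by ring, Gamma_add_one ha.ne',
    log_mul ha.ne' (Gamma_pos_of_pos ha).ne'] at h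
  have h1 := Gamma_pos_of_pos ha
  have h2 := Gamma_pos_of_pos (by linarith : 0 < a + 1 / 2)
  rw [← log_le_log_iff (by positivity) (by positivity), log_pow, log_mul ha.ne' (by positivity),
    log_pow]
  push_cast
  linarith

lemma Gamma_sq_ge {m : ℕ} (hm : 3 ≤ m) :
    ((m : ℝ) / exp 1) ^ m / 2 ^ m ≤ Gamma ((m : ℝ) / 2 + 1) ^ 2 := by
  have hm' : (3 : ℝ) ≤ m := by exact_mod_cast hm
  set s : ℝ := ((m : ℝ) + 1) / 2 with hs
  have hle : Gamma s ≤ Gamma (s + 1 / 2) :=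
    Gamma_strictMonoOn_Ici.monotoneOn (Set.mem_Ici.2 (by rw [hs]; linarith))
      (Set.mem_Ici.2 (by rw [hs]; linarith)) (by linarith)
  have hL : Gamma s * Gamma (s + 1 / 2) = (m.factorial : ℝ) * √π / 2 ^ m := by
    rw [Gamma_mul_Gamma_add_half]
    have h2 : 2 * s = (m : ℝ) + 1 := by rw [hs]; ring
    rw [h2, Gamma_nat_eq_factorial, show (1 : ℝ) - ((m : ℝ) + 1) = -(m : ℝ) by ring,
      rpow_neg zero_le_two, rpow_natCast]
    ring
  have he : s + 1 / 2 = (m : ℝ) / 2 + 1 := by rw [hs]; ring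
  rw [← he]
  have hp : 1 ≤ √π := by
    rw [one_le_sqrt]; linarith [pi_gt_three]
  have hfac : ((m : ℝ) / exp 1) ^ m ≤ (m.factorial : ℝ) := by
    have h := pow_div_factorial_le_exp (m : ℝ) (Nat.cast_nonneg m) m
    rw [div_le_iff₀ (by positivity)] at h
    rw [div_pow, ← exp_nat_mul, mul_one, div_le_iff₀ (exp_pos _)]
    linarith
  calc ((m : ℝ) / exp 1) ^ m / 2 ^ m ≤ (m.factorial : ℝ) * √π / 2 ^ m := by
        refine div_le_div_of_nonneg_right ?_ (by positivity)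
        calc ((m : ℝ) / exp 1) ^ m ≤ (m.factorial : ℝ) * 1 := by rw [mul_one]; exact hfac
          _ ≤ (m.factorial : ℝ) * √π := mul_le_mul_of_nonneg_left hp (Nat.cast_nonneg _)
    _ = Gamma s * Gamma (s + 1 / 2) := hL.symm
    _ ≤ Gamma (s + 1 / 2) ^ 2 := by
        rw [sq]
        exact mul_le_mul_of_nonneg_right hle (Gamma_pos_of_pos (by rw [hs]; linarith)).le

lemma ball_sq_le {k : ℕ} (hk : 2 ≤ k) :
    (unitBallVol k ^ (k + 1) * unitBallVol (k + 1) ^ (2 - ((k + 1 : ℕ) : ℤ))) ^ 2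
      ≤ (((k : ℝ) + 2) / (2 * π) * (π * 2 * exp 1 / ((k : ℝ) + 1)) ^ 2) ^ (k + 1) := by
  set m := k + 1 with hm
  have hm' : (m : ℝ) = (k : ℝ) + 1 := by rw [hm]; push_cast; ring
  have hg : 0 < Gamma ((k : ℝ) / 2 + 1) := Gamma_pos_of_pos (by positivity)
  have hG : 0 < Gamma ((m : ℝ) / 2 + 1) := Gamma_pos_of_pos (by positivity)
  have h1 : unitBallVol k = √π ^ k / Gamma ((k : ℝ) / 2 + 1) := unitBallVol_eq (by omega)
  have h2 : unitBallVol m = √π ^ m / Gamma ((m : ℝ) / 2 + 1) := unitBallVol_eq (by omega)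
  have hp : 0 < √π := sqrt_pos.2 pi_pos
  have hb : 0 < unitBallVol m := by rw [h2]; positivity
  have hrew : unitBallVol k ^ m * unitBallVol m ^ (2 - (m : ℤ))
      = (unitBallVol k / unitBallVol m) ^ m * unitBallVol m ^ 2 := by
    rw [zpow_sub₀ hb.ne', zpow_natCast, div_pow,
      show unitBallVol m ^ (2 : ℤ) = unitBallVol m ^ (2 : ℕ) from zpow_natCast _ 2]
    ring
  rw [hrew]
  have hratio : (unitBallVol k / unitBallVol m) ^ 2 ≤ ((k : ℝ) + 2) / (2 * π) := by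
    have h3 := Gamma_sq_le (by positivity : 0 < (k : ℝ) / 2 + 1)
    rw [h1, h2, show √π ^ m = √π ^ k * √π from pow_succ _ _, show (m : ℝ) / 2 + 1 = (k : ℝ) / 2 + 1 + 1 / 2 by
      rw [hm']; ring]
    have hG' : 0 < Gamma ((k : ℝ) / 2 + 1 + 1 / 2) := Gamma_pos_of_pos (by positivity)
    have he : √π ^ k / Gamma ((k : ℝ) / 2 + 1) / (√π ^ k * √π / Gamma ((k : ℝ) / 2 + 1 + 1 / 2))
        = Gamma ((k : ℝ) / 2 + 1 + 1 / 2) / (√π * Gamma ((k : ℝ) / 2 + 1)) := by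
      field_simp
    rw [he, div_pow, mul_pow, sq_sqrt pi_pos.le, div_le_div_iff₀ (by positivity) (by positivity)]
    calc Gamma ((k : ℝ) / 2 + 1 + 1 / 2) ^ 2 * (2 * π)
        ≤ ((k : ℝ) / 2 + 1) * Gamma ((k : ℝ) / 2 + 1) ^ 2 * (2 * π) :=
          mul_le_mul_of_nonneg_right h3 (by positivity)
      _ = ((k : ℝ) + 2) * (π * Gamma ((k : ℝ) / 2 + 1) ^ 2) := by ring
  have hbsq : unitBallVol m ^ 2 ≤ (π * 2 * exp 1 / ((k : ℝ) + 1)) ^ m := by
    have h4 := Gamma_sq_ge (m := m) (by omega)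
    rw [h2, div_pow, ← pow_mul, mul_comm m 2, pow_mul, sq_sqrt pi_pos.le, ← hm',
      div_le_iff₀ (by positivity)]
    refine le_trans ?_ (mul_le_mul_of_nonneg_left h4 (by positivity))
    rw [← div_pow, ← mul_pow]
    refine le_of_eq ?_
    congr 1
    have hm0 : (m : ℝ) ≠ 0 := by rw [hm']; positivity
    field_simp
  have hnn : 0 ≤ unitBallVol k / unitBallVol m := by rw [h1, h2]; positivity
  calc ((unitBallVol k / unitBallVol m) ^ m * unitBallVol m ^ 2) ^ 2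
      = ((unitBallVol k / unitBallVol m) ^ 2) ^ m * (unitBallVol m ^ 2) ^ 2 := by ring
    _ ≤ (((k : ℝ) + 2) / (2 * π)) ^ m * ((π * 2 * exp 1 / ((k : ℝ) + 1)) ^ m) ^ 2 := by
        gcongr
    _ = _ := by rw [mul_pow, ← pow_mul, ← pow_mul, mul_comm m 2]

lemma numeric_main {k N : ℕ} (hk : 99 ≤ k) (hN0 : 0 < N)
    (hN : (N : ℝ) ≤ exp (((k : ℝ) + 1) / 18)) :
    unitBallVol k ^ (k + 1) * unitBallVol (k + 1) ^ (2 - ((k + 1 : ℕ) : ℤ))
      < (2 * π) ^ (((k + 1 : ℕ) : ℝ) / 2) * (1 / 2)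
          / √(2 * log (2 * N)) ^ (k + 1) := by
  set m := k + 1 with hm
  set L := log (2 * (N : ℝ)) with hLdef
  have hN1 : (1 : ℝ) ≤ N := by exact_mod_cast hN0
  have hL0 : 0 < L := log_pos (by linarith)
  have hk' : (99 : ℝ) ≤ k := by exact_mod_cast hk
  have hLle : L ≤ ((k : ℝ) + 1) / 18 + 0.6932 := by
    rw [hLdef, log_mul two_ne_zero (by linarith)]
    have h := log_le_log (by linarith) hN
    rw [log_exp] at h
    have := log_two_lt_d9
    linarith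
  refine lt_of_pow_lt_pow_left₀ 2 (by positivity) ?_
  refine (ball_sq_le (by omega)).trans_lt ?_
  have hR : ((2 * π) ^ ((m : ℝ) / 2) * (1 / 2) / √(2 * L) ^ m) ^ 2 = (π / L) ^ m / 4 := by
    rw [div_pow, mul_pow, ← pow_mul, mul_comm m 2, pow_mul, sq_sqrt (by positivity),
      ← rpow_natCast ((2 * π) ^ ((m : ℝ) / 2)) 2, ← rpow_mul (by positivity)]
    rw [show (m : ℝ) / 2 * ((2 : ℕ) : ℝ) = (m : ℝ) by push_cast; ring, rpow_natCast,
      show π / L = 2 * π / (2 * L) by field_simp, div_pow (2 * π) (2 * L)]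
    ring
  rw [hR]
  have hexp : exp 1 * exp 1 ≤ 7.3891 := by
    have := exp_one_lt_d9
    have := exp_pos 1
    nlinarith
  set x := ((k : ℝ) + 2) / (2 * π) * (π * 2 * exp 1 / ((k : ℝ) + 1)) ^ 2 * (L / π) with hx
  have hx0 : 0 ≤ x := by positivity
  have hx1 : x ≤ 0.94 := by
    have he : x = 2 * (exp 1 * exp 1) * ((k : ℝ) + 2) * L / ((k : ℝ) + 1) ^ 2 := by
      rw [hx]; field_simp; try ring
    rw [he, div_le_iff₀ (by positivity)]
    calc 2 * (exp 1 * exp 1) * ((k : ℝ) + 2) * L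
        ≤ 2 * 7.3891 * ((k : ℝ) + 2) * (((k : ℝ) + 1) / 18 + 0.6932) := by gcongr
      _ ≤ 0.94 * ((k : ℝ) + 1) ^ 2 := by nlinarith
  have hx4 : x ^ m < 1 / 4 := by
    calc x ^ m ≤ (0.94 : ℝ) ^ m := pow_le_pow_left₀ hx0 hx1 m
      _ ≤ (0.94 : ℝ) ^ 100 := pow_le_pow_of_le_one (by norm_num) (by norm_num) (by omega)
      _ < 1 / 4 := by norm_num
  have hq : ((k : ℝ) + 2) / (2 * π) * (π * 2 * exp 1 / ((k : ℝ) + 1)) ^ 2 = x * (π / L) := by
    rw [hx]; field_simp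
  rw [hq, mul_pow]
  calc x ^ m * (π / L) ^ m < 1 / 4 * (π / L) ^ m :=
        mul_lt_mul_of_pos_right hx4 (by positivity)
    _ = (π / L) ^ m / 4 := by ring

end Vale.Agent.P237
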