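import Vale.Agent.P237.Zono
import Vale.Agent.P074.PL

/-!
# First variation of polytope volume and consequences
-/

namespace Vale.Agent.P237

open MeasureTheory Set Metric Filter Topology
open scoped RealInnerProductSpace ENNReal Pointwise

variable {n N : ℕ}

/-- The intersection of the half-spaces `⟪u i, x⟫ ≤ b i`. -/
def polyH (u : Fin N → EuclideanSpace ℝ (Fin n)) (b : Fin N → ℝ) :
    Set (EuclideanSpace ℝ (Fin n)) :=
  {x | ∀ i, ⟪u i, x⟫ ≤ b i}

/-- The part of the polytope lying in the cone over the face `i`. -/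
def conePiece (u : Fin N → EuclideanSpace ℝ (Fin n)) (b : Fin N → ℝ) (i : Fin N) :
    Set (EuclideanSpace ℝ (Fin n)) :=
  {x | x ∈ polyH u b ∧ ∀ j, ⟪u j, x⟫ / b j ≤ ⟪u i, x⟫ / b i ∧
    (j < i → ⟪u j, x⟫ / b j < ⟪u i, x⟫ / b i)}

/-- The volume of a cone piece. -/
noncomputable def coneVol (u : Fin N → EuclideanSpace ℝ (Fin n)) (b : Fin N → ℝ) (i : Fin N) : ℝ :=
  (volume (conePiece u b i)).toReal

lemma isClosed_polyH (u : Fin N → EuclideanSpace ℝ (Fin n)) (b : Fin N → ℝ) :
    IsClosed (polyH u b) := by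
  rw [polyH, Set.ofPred_forall]
  exact isClosed_iInter (fun i => isClosed_le (by fun_prop) continuous_const)

lemma convex_polyH (u : Fin N → EuclideanSpace ℝ (Fin n)) (b : Fin N → ℝ) :
    Convex ℝ (polyH u b) := by
  rw [polyH, Set.ofPred_forall]
  exact convex_iInter (fun i => convex_halfSpace_le (innerₛₗ ℝ (u i)).isLinear _)

lemma measurableSet_conePiece (u : Fin N → EuclideanSpace ℝ (Fin n)) (b : Fin N → ℝ) (i : Fin N) :
    MeasurableSet (conePiece u b i) := by
  rw [conePiece, Set.ofPred_and]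
  refine (isClosed_polyH u b).measurableSet.inter ?_
  rw [Set.ofPred_forall]
  refine MeasurableSet.iInter (fun j => ?_)
  rw [Set.ofPred_and]
  refine (measurableSet_le (by fun_prop) (by fun_prop)).inter ?_
  by_cases h : j < i
  · simp only [h, forall_true_left]
    exact measurableSet_lt (by fun_prop) (by fun_prop)
  · simp [h]

lemma exists_firstMax [NeZero N] (f : Fin N → ℝ) :
    ∃ i, ∀ j, f j ≤ f i ∧ (j < i → f j < f i) := by
  classical
  obtain ⟨i0, -, hi0⟩ := Finset.exists_max_image Finset.univ f Finset.univ_nonempty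
  have hne : (Finset.univ.filter (fun i => f i = f i0)).Nonempty := ⟨i0, by simp⟩
  refine ⟨(Finset.univ.filter (fun i => f i = f i0)).min' hne, fun j => ?_⟩
  have hmem := Finset.min'_mem _ hne
  simp only [Finset.mem_filter, Finset.mem_univ, true_and] at hmem
  refine ⟨by rw [hmem]; exact hi0 j (Finset.mem_univ j), fun hj => ?_⟩
  rw [hmem]
  refine lt_of_le_of_ne (hi0 j (Finset.mem_univ j)) (fun heq => ?_)
  exact absurd (Finset.min'_le _ j (by simp [heq])) (not_le.2 hj)

lemma sum_coneVol [NeZero N] (u : Fin N → EuclideanSpace ℝ (Fin n)) (b : Fin N → ℝ)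
    (hK : IsCompact (polyH u b)) :
    ∑ i, coneVol u b i = (volume (polyH u b)).toReal := by
  have hsub : ∀ i, conePiece u b i ⊆ polyH u b := fun i x hx => hx.1
  have hfin : ∀ i, volume (conePiece u b i) ≠ ⊤ := fun i =>
    ((measure_mono (hsub i)).trans_lt hK.measure_lt_top).ne
  have hU : polyH u b = ⋃ i, conePiece u b i := by
    refine subset_antisymm (fun x hx => ?_) (iUnion_subset hsub)
    obtain ⟨i, hi⟩ := exists_firstMax (fun j => ⟪u j, x⟫ / b j)
    exact mem_iUnion.2 ⟨i, hx, hi⟩
  have hdisj : Pairwise (Function.onFun Disjoint (conePiece u b)) := by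
    intro i j hij
    rw [Function.onFun, Set.disjoint_left]
    intro x hi hj
    rcases lt_or_gt_of_ne hij with h | h
    · exact lt_irrefl _ (((hj.2 i).2 h).trans_le (hi.2 j).1)
    · exact lt_irrefl _ (((hi.2 j).2 h).trans_le (hj.2 i).1)
  conv_rhs => rw [hU]
  rw [measure_iUnion hdisj (fun i => measurableSet_conePiece u b i), tsum_fintype,
    ENNReal.toReal_sum (fun i _ => hfin i)]
  rfl

lemma volume_polyH_le [NeZero N] (u : Fin N → EuclideanSpace ℝ (Fin n)) (b z : Fin N → ℝ)
    (hb : ∀ i, 0 < b i) (hz : ∀ i, 0 < 1 + z i) (hK : IsCompact (polyH u b)) :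
    volume (polyH u (fun i => (1 + z i) * b i))
      ≤ ENNReal.ofReal (∑ i, (1 + z i) ^ n * coneVol u b i) := by
  have hsub : polyH u (fun i => (1 + z i) * b i) ⊆ ⋃ i, (1 + z i) • conePiece u b i := by
    intro x hx
    obtain ⟨i, hi⟩ := exists_firstMax (fun j => ⟪u j, x⟫ / b j)
    have hfi : ⟪u i, x⟫ / b i ≤ 1 + z i := (div_le_iff₀ (hb i)).2 (hx i)
    refine mem_iUnion.2 ⟨i, (1 + z i)⁻¹ • x, ⟨fun j => ?_, fun j => ?_⟩, ?_⟩
    · have h1 : ⟪u j, x⟫ / b j ≤ 1 + z i := ((hi j).1).trans hfi
      rw [div_le_iff₀ (hb j)] at h1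
      rw [real_inner_smul_right, inv_mul_le_iff₀ (hz i)]
      exact h1
    · simp only [real_inner_smul_right, mul_div_assoc]
      exact ⟨mul_le_mul_of_nonneg_left (hi j).1 (inv_nonneg.2 (hz i).le),
        fun hj => mul_lt_mul_of_pos_left ((hi j).2 hj) (inv_pos.2 (hz i))⟩
    · simp [smul_smul, mul_inv_cancel₀ (hz i).ne']
  refine (measure_mono hsub).trans ((measure_iUnion_le _).trans ?_)
  rw [tsum_fintype, ENNReal.ofReal_sum_of_nonneg (s := Finset.univ)
    (f := fun i => (1 + z i) ^ n * coneVol u b i)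
    (fun i _ => mul_nonneg (pow_nonneg (hz i).le n) ENNReal.toReal_nonneg)]
  refine Finset.sum_le_sum (fun i _ => le_of_eq ?_)
  rw [Measure.addHaar_smul_of_nonneg _ (hz i).le, finrank_euclideanSpace_fin,
    ENNReal.ofReal_mul (pow_nonneg (hz i).le _), coneVol, ENNReal.ofReal_toReal]
  exact ((measure_mono (fun x hx => hx.1)).trans_lt hK.measure_lt_top).ne

lemma first_variation (n : ℕ) (V z : Fin N → ℝ) (h : ℝ)
    (H : ∀ m : ℕ, (∀ i, 0 < 1 + (1 / 2 : ℝ) ^ m * z i) →
      ∑ i, V i ≤ (∑ i, (1 + (1 / 2 : ℝ) ^ m * z i) ^ n * V i) + (1 / 2 : ℝ) ^ m * h) :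
    0 ≤ (n : ℝ) * (∑ i, V i * z i) + h := by
  set g : ℝ → ℝ := fun t => (∑ i, (1 + t * z i) ^ n * V i) + t * h with hg
  have hd : HasDerivAt g ((n : ℝ) * (∑ i, V i * z i) + h) 0 := by
    have h1 : ∀ i ∈ (Finset.univ : Finset (Fin N)),
        HasDerivAt (fun t => (1 + t * z i) ^ n * V i) ((n : ℝ) * (V i * z i)) 0 := by
      intro i _
      have h2 : HasDerivAt (fun t : ℝ => 1 + t * z i) (z i) 0 := by
        simpa using ((hasDerivAt_id (0 : ℝ)).mul_const (z i)).const_add 1
      have := (h2.fun_pow n).mul_const (V i)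
      simp only [zero_mul, add_zero, one_pow, mul_one] at this
      rw [show (n : ℝ) * (V i * z i) = n * z i * V i by ring]
      exact this
    have := (HasDerivAt.fun_sum h1).add ((hasDerivAt_id (0 : ℝ)).mul_const h)
    simp only [one_mul, id, Finset.mul_sum] at this ⊢
    exact this
  have hlim : Tendsto (fun m : ℕ => (1 / 2 : ℝ) ^ m) atTop (𝓝[≠] 0) :=
    tendsto_nhdsWithin_iff.2
      ⟨tendsto_pow_atTop_nhds_zero_of_lt_one (by norm_num) (by norm_num),
        Filter.Eventually.of_forall (fun m => pow_ne_zero m (by norm_num))⟩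
  have hs := (hasDerivAt_iff_tendsto_slope.1 hd).comp hlim
  refine ge_of_tendsto hs ?_
  have hev : ∀ᶠ m : ℕ in atTop, ∀ i, 0 < 1 + (1 / 2 : ℝ) ^ m * z i := by
    refine eventually_all.2 (fun i => ?_)
    have ht := (((tendsto_pow_atTop_nhds_zero_of_lt_one (by norm_num : (0 : ℝ) ≤ 1 / 2)
      (by norm_num)).mul_const (z i)).const_add (1 : ℝ))
    rw [zero_mul, add_zero] at ht
    exact ht.eventually (eventually_gt_nhds one_pos)
  filter_upwards [hev] with m hm
  have := H m hm
  simp only [Function.comp_apply, slope_def_field, sub_zero, hg]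
  refine div_nonneg ?_ (by positivity)
  simp only [zero_mul, add_zero, one_pow, one_mul]
  linarith

variable [NeZero N] (u : Fin N → EuclideanSpace ℝ (Fin n)) (b : Fin N → ℝ)

lemma midpoint_volume {A B C : Set (EuclideanSpace ℝ (Fin n))} (hA : MeasurableSet A)
    (hB : MeasurableSet B) (hC : MeasurableSet C)
    (h : ∀ x ∈ A, ∀ y ∈ B, (1 / 2 : ℝ) • (x + y) ∈ C) :
    volume A * volume B ≤ volume C ^ 2 := by
  have := Vale.Agent.P074.pl_euclid (measurable_const.indicator hA : Measurable (A.indicator 1))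
    (measurable_const.indicator hB : Measurable (B.indicator 1))
    (measurable_const.indicator hC : Measurable (C.indicator 1)) (fun x y => ?_)
  · simpa [lintegral_indicator_one hA, lintegral_indicator_one hB, lintegral_indicator_one hC]
      using this
  · by_cases hx : x ∈ A
    · by_cases hy : y ∈ B
      · rw [Set.indicator_of_mem (h x hx y hy)]
        simp [hx, hy]
      · simp [hy]
    · simp [hx]

lemma minkowski_first (hb : ∀ i, 0 < b i) (hK : IsCompact (polyH u b))
    (L : Set (EuclideanSpace ℝ (Fin n))) (c : Fin N → ℝ)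
    (hLc : ∀ x ∈ L, ∀ i, ⟪u i, x⟫ ≤ c i) (s : ℝ) (hs : 0 < s)
    (hvol : volume (polyH u b) ≤ ENNReal.ofReal (s ^ n) * volume L) (hn : 0 < n) :
    (volume (polyH u b)).toReal ≤ s * ∑ i, coneVol u b i * (c i / b i) := by
  set z : Fin N → ℝ := fun i => s * (c i / b i) - 1 with hz
  set Kb := polyH u b with hKb
  have hit : ∀ m : ℕ,
      volume Kb ≤ volume (polyH u (fun i => (1 + (1 / 2 : ℝ) ^ m * z i) * b i)) := by
    intro m
    induction m with
    | zero =>
      have hsub : s • L ⊆ polyH u (fun i => (1 + (1 / 2 : ℝ) ^ 0 * z i) * b i) := by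
        rintro _ ⟨x, hx, rfl⟩ i
        have e : (1 + (1 / 2 : ℝ) ^ 0 * z i) * b i = s * c i := by
          have := (hb i).ne'
          simp only [hz]; field_simp; ring
        change ⟪u i, s • x⟫ ≤ (1 + (1 / 2 : ℝ) ^ 0 * z i) * b i
        rw [e, real_inner_smul_right]
        exact mul_le_mul_of_nonneg_left (hLc x hx i) hs.le
      refine hvol.trans (le_trans (le_of_eq ?_) (measure_mono hsub))
      rw [Measure.addHaar_smul_of_nonneg _ hs.le, finrank_euclideanSpace_fin]
    | succ m ih =>
      have hmid := midpoint_volume hK.measurableSet (isClosed_polyH u _).measurableSet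
        (isClosed_polyH u (fun i => (1 + (1 / 2 : ℝ) ^ (m + 1) * z i) * b i)).measurableSet
        (B := polyH u (fun i => (1 + (1 / 2 : ℝ) ^ m * z i) * b i)) (fun x hx y hy i => by
          rw [real_inner_smul_right, inner_add_right]
          have h1 := hx i
          have h2 := hy i
          rw [pow_succ]
          linarith)
      have h2 : volume Kb ^ 2 ≤
          volume (polyH u (fun i => (1 + (1 / 2 : ℝ) ^ (m + 1) * z i) * b i)) ^ 2 := by
        refine le_trans ?_ hmid
        rw [sq]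
        exact mul_le_mul_right ih _
      exact (ENNReal.pow_right_strictMono two_ne_zero).le_iff_le.1 h2
  have hv : 0 ≤ (n : ℝ) * (∑ i, coneVol u b i * z i) + 0 := by
    refine first_variation n (coneVol u b) z 0 (fun m hm => ?_)
    rw [sum_coneVol u b hK, mul_zero, add_zero]
    refine ENNReal.toReal_le_of_le_ofReal (Finset.sum_nonneg (fun i _ =>
      mul_nonneg (pow_nonneg (hm i).le _) ENNReal.toReal_nonneg)) ?_
    exact (hit m).trans (volume_polyH_le u b (fun i => (1 / 2 : ℝ) ^ m * z i) hb hm hK)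
  rw [add_zero, mul_nonneg_iff_of_pos_left (by exact_mod_cast hn)] at hv
  simp only [hz, mul_sub, mul_one, Finset.sum_sub_distrib, sum_coneVol u b hK] at hv
  have e : ∑ i, coneVol u b i * (s * (c i / b i)) = s * ∑ i, coneVol u b i * (c i / b i) := by
    rw [Finset.mul_sum]; exact Finset.sum_congr rfl (fun i _ => by ring)
  linarith

end Vale.Agent.P237
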