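import Vale.Agent.P237.Body

/-!
# The balanced position
-/

namespace Vale.Agent.P237

open MeasureTheory Set Metric Filter Topology
open scoped RealInnerProductSpace ENNReal Matrix

variable {m N : ℕ}

/-- The vector whose coordinates are the inner products of `x` with the rows `A j`. -/
noncomputable def rowAct (A : Fin m → EuclideanSpace ℝ (Fin m)) :
    EuclideanSpace ℝ (Fin m) →ₗ[ℝ] EuclideanSpace ℝ (Fin m) where
  toFun x := WithLp.toLp 2 (fun j => ⟪A j, x⟫)
  map_add' x y := by ext i; simp [inner_add_right]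
  map_smul' c x := by ext i; simp [real_inner_smul_right]

/-- The weighted total length of the images of the `u i`. -/
noncomputable def totalLen (β : Fin N → ℝ) (u : Fin N → EuclideanSpace ℝ (Fin m))
    (A : Fin m → EuclideanSpace ℝ (Fin m)) : ℝ :=
  ∑ i, β i * ‖rowAct A (u i)‖

/-- The rows of `A` as a matrix. -/
def rowMatrix (A : Fin m → EuclideanSpace ℝ (Fin m)) : Matrix (Fin m) (Fin m) ℝ :=
  Matrix.of (fun j k => A j k)

lemma det_rowAct (A : Fin m → EuclideanSpace ℝ (Fin m)) :
    LinearMap.det (rowAct A) = (rowMatrix A).det := by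
  have h : rowAct A = Matrix.toLin (EuclideanSpace.basisFun (Fin m) ℝ).toBasis
      (EuclideanSpace.basisFun (Fin m) ℝ).toBasis (rowMatrix A) := by
    refine (EuclideanSpace.basisFun (Fin m) ℝ).toBasis.ext (fun k => ?_)
    rw [Matrix.toLin_self]
    ext j
    simp [rowAct, rowMatrix, Pi.single_apply, EuclideanSpace.inner_single_right]
  rw [h, LinearMap.det_toLin]

lemma norm_add_le_first (w p : EuclideanSpace ℝ (Fin m)) (hp : w = 0 → p = 0) :
    ‖w + p‖ ≤ ‖w‖ + (2 * ⟪w, p⟫ + ‖p‖ ^ 2) / (2 * ‖w‖) := by
  rcases eq_or_ne w 0 with rfl | hw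
  · simp [hp rfl]
  have hw' : 0 < ‖w‖ := norm_pos_iff.2 hw
  have h := norm_add_sq_real w p
  rw [← sub_le_iff_le_add', le_div_iff₀ (by positivity)]
  nlinarith [sq_nonneg (‖w + p‖ - ‖w‖)]

lemma exists_balanced (hm : 0 < m) (β : Fin N → ℝ) (hβ : ∀ i, 0 ≤ β i)
    (u : Fin N → EuclideanSpace ℝ (Fin m))
    (hspan : ∀ x : EuclideanSpace ℝ (Fin m), x ≠ 0 → ∃ i, β i * ⟪u i, x⟫ ≠ 0) :
    ∃ A : Fin m → EuclideanSpace ℝ (Fin m), (rowMatrix A).det = 1 ∧
      momMatrix (fun i => β i / ‖rowAct A (u i)‖) (fun i => rowAct A (u i))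
        = Matrix.diagonal (fun _ => totalLen β u A / m) := by
  classical
  have hTcont : Continuous (totalLen β u) := by
    unfold totalLen rowAct
    simp only [LinearMap.coe_mk, AddHom.coe_mk]
    fun_prop
  have hdcont : Continuous (fun A : Fin m → EuclideanSpace ℝ (Fin m) => (rowMatrix A).det) :=
    Continuous.matrix_det (by unfold rowMatrix; fun_prop)
  have hpos : ∀ A : Fin m → EuclideanSpace ℝ (Fin m), A ≠ 0 → 0 < totalLen β u A := by
    intro A hA
    obtain ⟨j, hj⟩ := Function.ne_iff.1 hA
    obtain ⟨i, hi⟩ := hspan (A j) hj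
    refine Finset.sum_pos' (fun i _ => mul_nonneg (hβ i) (norm_nonneg _)) ⟨i, Finset.mem_univ _, ?_⟩
    refine mul_pos (lt_of_le_of_ne (hβ i) (fun h => hi (by rw [← h, zero_mul]))) ?_
    refine norm_pos_iff.2 (fun h => hi ?_)
    have := congrArg (fun v : EuclideanSpace ℝ (Fin m) => v j) h
    simp only [rowAct, LinearMap.coe_mk, AddHom.coe_mk, PiLp.zero_apply] at this
    rw [real_inner_comm, this, mul_zero]
  let A1 : Fin m → EuclideanSpace ℝ (Fin m) := fun j => EuclideanSpace.single j 1
  have hA1 : (rowMatrix A1).det = 1 := by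
    have : rowMatrix A1 = 1 := by
      ext j k; simp [rowMatrix, A1, Matrix.one_apply, eq_comm]
    rw [this, Matrix.det_one]
  have : Nonempty (Fin m) := ⟨⟨0, hm⟩⟩
  have hsph : (sphere (0 : Fin m → EuclideanSpace ℝ (Fin m)) 1).Nonempty := by
    have hne : A1 ≠ 0 := fun h => by
      have := congrArg (fun v : EuclideanSpace ℝ (Fin m) => v ⟨0, hm⟩) (congrFun h ⟨0, hm⟩)
      simp [A1] at this
    exact ⟨‖A1‖⁻¹ • A1, by simp [norm_smul, hne]⟩
  obtain ⟨A0, hA0, hmin⟩ := (isCompact_sphere (0 : Fin m → EuclideanSpace ℝ (Fin m)) 1).exists_isMinOn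
    hsph hTcont.continuousOn
  have hA00 : A0 ≠ 0 := fun h => by simp [h] at hA0
  set c := totalLen β u A0 with hc
  have hc0 : 0 < c := hpos A0 hA00
  have hlow : ∀ A, c * ‖A‖ ≤ totalLen β u A := by
    intro A
    rcases eq_or_ne A 0 with rfl | hA
    · simp [totalLen]
      exact Finset.sum_nonneg (fun i _ => mul_nonneg (hβ i) (norm_nonneg _))
    have h1 : c ≤ totalLen β u (‖A‖⁻¹ • A) := hmin (by simp [norm_smul, hA])
    have h2 : totalLen β u (‖A‖⁻¹ • A) = ‖A‖⁻¹ * totalLen β u A := by
      simp only [totalLen, Finset.mul_sum]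
      refine Finset.sum_congr rfl (fun i _ => ?_)
      have : rowAct (‖A‖⁻¹ • A) (u i) = ‖A‖⁻¹ • rowAct A (u i) := by
        ext j; simp [rowAct, real_inner_smul_left]
      rw [this, norm_smul, norm_inv, norm_norm]
      ring
    rw [h2, inv_mul_eq_div, le_div_iff₀ (norm_pos_iff.2 hA)] at h1
    exact h1
  set S := {A : Fin m → EuclideanSpace ℝ (Fin m) | (rowMatrix A).det = 1 ∧
    totalLen β u A ≤ totalLen β u A1} with hS
  have hScpt : IsCompact S := by
    refine Metric.isCompact_of_isClosed_isBounded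
      ((isClosed_eq hdcont continuous_const).inter (isClosed_le hTcont continuous_const))
      ((isBounded_closedBall (x := 0) (r := totalLen β u A1 / c)).subset (fun A hA => ?_))
    rw [mem_closedBall_zero_iff, le_div_iff₀ hc0, mul_comm]
    exact (hlow A).trans hA.2
  obtain ⟨A, hAS, hAmin⟩ := hScpt.exists_isMinOn ⟨A1, hA1, le_rfl⟩ hTcont.continuousOn
  have hglob : ∀ B, (rowMatrix B).det = 1 → totalLen β u A ≤ totalLen β u B := by
    intro B hB
    rcases le_total (totalLen β u B) (totalLen β u A1) with h | h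
    · exact hAmin ⟨hB, h⟩
    · exact (hAS.2).trans h
  refine ⟨A, hAS.1, ?_⟩
  set w : Fin N → EuclideanSpace ℝ (Fin m) := fun i => rowAct A (u i) with hw
  set M := momMatrix (fun i => β i / ‖w i‖) w with hM
  have hMjk : ∀ j k, M j k = ∑ i, β i / ‖w i‖ * (w i j * w i k) := fun j k => by
    simp [hM, momMatrix, Matrix.sum_apply, Matrix.vecMulVec_apply]
  have hvar : ∀ (B : Fin m → EuclideanSpace ℝ (Fin m)) (p : Fin N → EuclideanSpace ℝ (Fin m)),
      (rowMatrix B).det = 1 → (∀ i, rowAct B (u i) = w i + p i) → (∀ i, w i = 0 → p i = 0) →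
      0 ≤ ∑ i, β i / (2 * ‖w i‖) * (2 * ⟪w i, p i⟫ + ‖p i‖ ^ 2) := by
    intro B p hB hBp hp0
    have h1 := hglob B hB
    have h2 : totalLen β u B ≤ totalLen β u A
        + ∑ i, β i / (2 * ‖w i‖) * (2 * ⟪w i, p i⟫ + ‖p i‖ ^ 2) := by
      rw [totalLen, totalLen, ← Finset.sum_add_distrib]
      refine Finset.sum_le_sum (fun i _ => ?_)
      rw [hBp]
      refine (mul_le_mul_of_nonneg_left (norm_add_le_first _ _ (hp0 i)) (hβ i)).trans (le_of_eq ?_)
      simp only [hw]; ring
    linarith
  have hact : ∀ i j, w i j = ⟪A j, u i⟫ := fun i j => rfl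
  have hoff : ∀ j k, j ≠ k → M j k = 0 := by
    intro j k hjk
    have key : ∀ s : ℝ, 0 ≤ 2 * s * M j k + s ^ 2 * M k k := by
      intro s
      have hB : (rowMatrix (Function.update A j (A j + s • A k))).det = 1 := by
        have : rowMatrix (Function.update A j (A j + s • A k))
            = (rowMatrix A).updateRow j (rowMatrix A j + s • rowMatrix A k) := by
          ext a b
          rcases eq_or_ne a j with rfl | h
          · simp [rowMatrix]
          · simp [rowMatrix, h]
        rw [this, Matrix.det_updateRow_add_smul_self _ hjk]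
        exact hAS.1
      have := hvar _ (fun i => EuclideanSpace.single j (s * w i k)) hB (fun i => by
        ext a
        rcases eq_or_ne a j with rfl | h
        · simp [rowAct, hact, inner_add_left, real_inner_smul_left]
        · simp [rowAct, hact, h]) (fun i h => by simp [h])
      have h2 : 0 ≤ ∑ i, β i / (2 * ‖w i‖) *
          (2 * (s * (w i j * w i k)) + s ^ 2 * (w i k * w i k)) := by
        refine this.trans (le_of_eq (Finset.sum_congr rfl (fun i _ => ?_)))
        simp [EuclideanSpace.inner_single_right, mul_pow]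
        left
        ring
      have h3 : (2 * s * M j k + s ^ 2 * M k k) / 2
          = ∑ i, β i / (2 * ‖w i‖) * (2 * (s * (w i j * w i k)) + s ^ 2 * (w i k * w i k)) := by
        rw [hMjk, hMjk, Finset.mul_sum, Finset.mul_sum, ← Finset.sum_add_distrib, Finset.sum_div]
        exact Finset.sum_congr rfl (fun i _ => by ring)
      linarith
    by_contra hne
    have hkk : 0 ≤ M k k := by
      rw [hMjk]
      exact Finset.sum_nonneg (fun i _ =>
        mul_nonneg (div_nonneg (hβ i) (norm_nonneg _)) (mul_self_nonneg _))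
    have := key (-(M j k) / (M k k + 1))
    field_simp at this
    nlinarith [sq_pos_of_ne_zero hne]
  have hdiag : ∀ j k, j ≠ k → M k k ≤ M j j := by
    intro j k hjk
    have key : ∀ s : ℝ, 0 < s → 0 ≤ ((1 + s) ^ 2 - 1) * M j j + (((1 + s) ^ 2)⁻¹ - 1) * M k k := by
      intro s hs
      have hB : (rowMatrix (Function.update (Function.update A j ((1 + s) • A j)) k
          ((1 + s)⁻¹ • A k))).det = 1 := by
        have : rowMatrix (Function.update (Function.update A j ((1 + s) • A j)) k
            ((1 + s)⁻¹ • A k)) = ((rowMatrix A).updateRow j ((1 + s) • rowMatrix A j)).updateRow k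
              ((1 + s)⁻¹ • rowMatrix A k) := by
          ext a b
          rcases eq_or_ne a k with rfl | h
          · simp [rowMatrix]
          · rcases eq_or_ne a j with rfl | h'
            · simp [rowMatrix, h]
            · simp [rowMatrix, h, h']
        rw [this, Matrix.det_updateRow_smul]
        have hk : ((rowMatrix A).updateRow j ((1 + s) • rowMatrix A j)) k = rowMatrix A k :=
          Matrix.updateRow_ne hjk.symm
        rw [← hk, Matrix.updateRow_eq_self, Matrix.det_updateRow_smul, Matrix.updateRow_eq_self,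
          hAS.1, mul_one, inv_mul_cancel₀ (by linarith)]
      have := hvar _ (fun i => EuclideanSpace.single j (s * w i j)
          + EuclideanSpace.single k (((1 + s)⁻¹ - 1) * w i k)) hB (fun i => by
        ext a
        rcases eq_or_ne a k with rfl | h
        · simp [rowAct, hact, real_inner_smul_left, hjk.symm]; ring
        · rcases eq_or_ne a j with rfl | h'
          · simp [rowAct, hact, h, real_inner_smul_left]; ring
          · simp [rowAct, hact, h, h']) (fun i h => by ext a; simp [h])
      have h2 : 0 ≤ ∑ i, β i / (2 * ‖w i‖) *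
          (((1 + s) ^ 2 - 1) * (w i j * w i j) + (((1 + s) ^ 2)⁻¹ - 1) * (w i k * w i k)) := by
        refine this.trans (le_of_eq (Finset.sum_congr rfl (fun i _ => ?_)))
        rw [norm_add_sq_real]
        simp [inner_add_right, EuclideanSpace.inner_single_right, mul_pow, hjk.symm]
        left
        have hs1 : (1 + s) ≠ 0 := by linarith
        field_simp
        ring
      have h3 : (((1 + s) ^ 2 - 1) * M j j + (((1 + s) ^ 2)⁻¹ - 1) * M k k) / 2
          = ∑ i, β i / (2 * ‖w i‖) * (((1 + s) ^ 2 - 1) * (w i j * w i j)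
              + (((1 + s) ^ 2)⁻¹ - 1) * (w i k * w i k)) := by
        rw [hMjk, hMjk, Finset.mul_sum, Finset.mul_sum, ← Finset.sum_add_distrib, Finset.sum_div]
        exact Finset.sum_congr rfl (fun i _ => by ring)
      linarith
    have key2 : ∀ s : ℝ, 0 < s → M k k ≤ (1 + s) ^ 2 * M j j := by
      intro s hs
      have h := key s hs
      have hq : 1 < (1 + s) ^ 2 := by nlinarith
      have h4 : 0 ≤ ((1 + s) ^ 2 - 1) * ((1 + s) ^ 2 * M j j - M k k) / (1 + s) ^ 2 := by
        refine h.trans (le_of_eq ?_)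
        field_simp
        ring
      rw [le_div_iff₀ (by positivity), zero_mul] at h4
      have h5 : 0 ≤ (1 + s) ^ 2 * M j j - M k k :=
        (mul_nonneg_iff_of_pos_left (by linarith)).1 h4
      linarith
    have hl : Tendsto (fun s : ℝ => (1 + s) ^ 2 * M j j) (𝓝[>] 0) (𝓝 (M j j)) := by
      have hc : Continuous (fun s : ℝ => (1 + s) ^ 2 * M j j) := by fun_prop
      have := (hc.tendsto 0).mono_left (nhdsWithin_le_nhds (s := Ioi (0 : ℝ)))
      simpa using this
    exact ge_of_tendsto hl (eventually_nhdsWithin_of_forall (fun s hs => key2 s hs))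
  have htr : ∑ j, M j j = totalLen β u A := by
    simp only [hMjk, totalLen]
    rw [Finset.sum_comm]
    refine Finset.sum_congr rfl (fun i _ => ?_)
    rw [← Finset.mul_sum]
    have : ∑ j, w i j * w i j = ‖w i‖ ^ 2 := by
      rw [EuclideanSpace.norm_sq_eq]
      simp [sq]
    rw [this]
    rcases eq_or_ne ‖w i‖ 0 with h | h
    · simp [hw] at *
      simp [h]
    · simp only [hw] at *
      field_simp
  ext j k
  rcases eq_or_ne j k with rfl | hjk
  · have hall : ∀ a, M a a = M j j := fun a => by
      rcases eq_or_ne a j with rfl | h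
      · rfl
      · exact le_antisymm (hdiag j a h.symm) (hdiag a j h)
    rw [Matrix.diagonal_apply_eq, ← htr, Finset.sum_congr rfl (fun a _ => hall a)]
    simp only [Finset.sum_const, Finset.card_univ, Fintype.card_fin, nsmul_eq_mul]
    have hm' : (m : ℝ) ≠ 0 := by exact_mod_cast hm.ne'
    field_simp
  · rw [Matrix.diagonal_apply_ne _ hjk, hoff j k hjk]

end Vale.Agent.P237
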