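import Vale.Agent.P237.Coord

/-!
# A determinant lower bound for the volume of a zonotope
-/

namespace Vale.Agent.P237

open MeasureTheory Set Metric
open scoped RealInnerProductSpace ENNReal Matrix

/-- The zonotope generated by the segments `[-w i, w i]`. -/
def zono {n N : ℕ} (w : Fin N → EuclideanSpace ℝ (Fin n)) : Set (EuclideanSpace ℝ (Fin n)) :=
  (fun s : Fin N → ℝ => ∑ i, s i • w i) '' Set.pi Set.univ (fun _ => Icc (-1 : ℝ) 1)

/-- The weighted second moment matrix. -/
def momMatrix {n N : ℕ} (g : Fin N → ℝ) (w : Fin N → EuclideanSpace ℝ (Fin n)) :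
    Matrix (Fin n) (Fin n) ℝ :=
  ∑ i, g i • Matrix.vecMulVec (w i).ofLp (w i).ofLp

lemma isCompact_zono {n N : ℕ} (w : Fin N → EuclideanSpace ℝ (Fin n)) : IsCompact (zono w) :=
  (isCompact_univ_pi (fun _ => isCompact_Icc)).image (by fun_prop)

lemma convex_zono {n N : ℕ} (w : Fin N → EuclideanSpace ℝ (Fin n)) : Convex ℝ (zono w) := by
  let L : (Fin N → ℝ) →ₗ[ℝ] EuclideanSpace ℝ (Fin n) := Fintype.linearCombination ℝ w
  have : zono w = L '' Set.pi Set.univ (fun _ => Icc (-1 : ℝ) 1) := by
    unfold zono
    refine Set.image_congr (fun s _ => ?_)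
    simp [L, Fintype.linearCombination_apply]
  rw [this]
  exact (convex_pi (fun _ _ => convex_Icc _ _)).linear_image L

lemma zono_zero_mem {n N : ℕ} (w : Fin N → EuclideanSpace ℝ (Fin n)) : (0 : _) ∈ zono w :=
  ⟨0, fun i _ => ⟨by simp, by simp⟩, by simp⟩

lemma image_zono {n m N : ℕ} (L : EuclideanSpace ℝ (Fin n) →ₗ[ℝ] EuclideanSpace ℝ (Fin m))
    (w : Fin N → EuclideanSpace ℝ (Fin n)) : L '' zono w = zono (fun i => L (w i)) := by
  simp [zono, Set.image_image, map_sum, map_smul]

/-- The matrix of a linear isometry. -/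
noncomputable def isoMatrix {n : ℕ}
    (R : EuclideanSpace ℝ (Fin n) ≃ₗᵢ[ℝ] EuclideanSpace ℝ (Fin n)) : Matrix (Fin n) (Fin n) ℝ :=
  fun i j => R (EuclideanSpace.single j 1) i

lemma isoMatrix_mulVec {n : ℕ} (R : EuclideanSpace ℝ (Fin n) ≃ₗᵢ[ℝ] EuclideanSpace ℝ (Fin n))
    (x : EuclideanSpace ℝ (Fin n)) : isoMatrix R *ᵥ x.ofLp = (R x).ofLp := by
  have h : x = ∑ j, x j • EuclideanSpace.single j (1 : ℝ) := by
    ext i; simp [Pi.single_apply]
  conv_rhs => rw [h, map_sum]
  funext i
  simp [Matrix.mulVec, dotProduct, isoMatrix, mul_comm]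

lemma isoMatrix_transpose_mul {n : ℕ}
    (R : EuclideanSpace ℝ (Fin n) ≃ₗᵢ[ℝ] EuclideanSpace ℝ (Fin n)) :
    (isoMatrix R)ᵀ * isoMatrix R = 1 := by
  ext j k
  have h := R.inner_map_map (EuclideanSpace.single j (1 : ℝ)) (EuclideanSpace.single k (1 : ℝ))
  simp only [EuclideanSpace.inner_single_left, map_one, one_mul] at h
  rw [PiLp.inner_apply] at h
  simp only [RCLike.inner_apply, conj_trivial] at h
  rw [Matrix.mul_apply, Matrix.one_apply]
  simp only [Matrix.transpose_apply, isoMatrix]
  simp only [mul_comm] at h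
  rw [h]
  simp

lemma det_momMatrix_map {n N : ℕ}
    (R : EuclideanSpace ℝ (Fin n) ≃ₗᵢ[ℝ] EuclideanSpace ℝ (Fin n)) (g : Fin N → ℝ)
    (w : Fin N → EuclideanSpace ℝ (Fin n)) :
    (momMatrix g (fun i => R (w i))).det = (momMatrix g w).det := by
  have h : momMatrix g (fun i => R (w i)) = isoMatrix R * momMatrix g w * (isoMatrix R)ᵀ := by
    simp only [momMatrix, Finset.mul_sum, Finset.sum_mul, Matrix.mul_smul, Matrix.smul_mul]
    refine Finset.sum_congr rfl (fun i _ => ?_)
    rw [Matrix.mul_vecMulVec, Matrix.vecMulVec_mul, Matrix.vecMul_transpose, isoMatrix_mulVec]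
  rw [h, Matrix.det_mul, Matrix.det_mul]
  have h2 := congrArg Matrix.det (isoMatrix_transpose_mul R)
  rw [Matrix.det_mul, Matrix.det_one] at h2
  calc (isoMatrix R).det * (momMatrix g w).det * (isoMatrix R)ᵀ.det
      = ((isoMatrix R)ᵀ.det * (isoMatrix R).det) * (momMatrix g w).det := by ring
    _ = (momMatrix g w).det := by rw [h2, one_mul]

lemma det_add_corner {n : ℕ} (M : Matrix (Fin (n + 1)) (Fin (n + 1)) ℝ) (c : ℝ) :
    (M + Matrix.single 0 0 c).det = M.det + c * (M.submatrix Fin.succ Fin.succ).det := by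
  rw [Matrix.det_succ_row_zero, Matrix.det_succ_row_zero (A := M)]
  have hsub : ∀ j : Fin (n + 1), (M + Matrix.single 0 0 c).submatrix Fin.succ j.succAbove
      = M.submatrix Fin.succ j.succAbove := by
    intro j
    ext a b
    simp [(Fin.succ_ne_zero a).symm]
  simp only [hsub, Matrix.add_apply, mul_add, add_mul, Finset.sum_add_distrib]
  congr 1
  rw [Finset.sum_eq_single 0]
  · simp [Fin.succAbove_zero]
  · intro j _ hj
    simp [hj.symm]
  · simp

theorem zono_volume_ge : ∀ (n N : ℕ) (g : Fin N → ℝ) (w : Fin N → EuclideanSpace ℝ (Fin n)),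
    (∀ i, 0 ≤ g i ∧ g i * ‖w i‖ ≤ 1) →
    ENNReal.ofReal (2 ^ n * (momMatrix g w).det) ≤ volume (zono w) := by
  intro n
  induction n with
  | zero =>
    intro N g w _
    have hu : zono w = Set.univ := eq_univ_of_forall (fun x => by
      rw [Subsingleton.elim x 0]; exact zono_zero_mem w)
    rw [hu, ← (PiLp.volume_preserving_toLp (Fin 0)).measure_preimage nullMeasurableSet_univ,
      Set.preimage_univ]
    simp [MeasureTheory.volume_pi, Matrix.det_isEmpty]
  | succ n ihn =>
    intro N
    induction N with
    | zero => intro g w _; simp [momMatrix]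
    | succ N ihN =>
      intro g w hg
      obtain ⟨R, hR⟩ := exists_align (w (Fin.last N))
      have hvol : volume (zono w) = volume (zono (fun i => R (w i))) := by
        rw [← show (R.toLinearEquiv.toLinearMap) '' zono w = zono (fun i => R (w i)) from
          image_zono _ w]
        change volume (zono w) = volume (R.toMeasurableEquiv '' zono w)
        rw [MeasurableEquiv.image_eq_preimage_symm]
        exact ((R.symm.measurePreserving).measure_preimage_equiv
          (f := R.toMeasurableEquiv.symm) _).symm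
      rw [hvol, ← det_momMatrix_map R]
      set v : Fin N → EuclideanSpace ℝ (Fin (n + 1)) := fun i => R (w i.castSucc) with hv
      set r : ℝ := ‖w (Fin.last N)‖ with hr
      set gl := g (Fin.last N) with hgl
      have hsplit : momMatrix g (fun i => R (w i))
          = momMatrix (fun i => g i.castSucc) v + Matrix.single 0 0 (gl * r ^ 2) := by
        unfold momMatrix
        rw [Fin.sum_univ_castSucc]
        simp only [hR, ← hgl]
        congr 1
        ext a b
        refine Fin.cases ?_ (fun a' => ?_) a <;> refine Fin.cases ?_ (fun b' => ?_) b <;>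
          simp [Matrix.vecMulVec_apply, e0, Fin.succ_ne_zero, (Fin.succ_ne_zero _).symm, sq]
      have hsub : (momMatrix (fun i => g i.castSucc) v).submatrix Fin.succ Fin.succ
          = momMatrix (fun i => g i.castSucc) (fun i => etail n (v i)) := by
        ext a b
        simp [momMatrix, Matrix.sum_apply, Matrix.vecMulVec_apply, etail, Fin.tail]
      rw [hsplit, det_add_corner, hsub]
      set d1 := (momMatrix (fun i => g i.castSucc) v).det
      set d2 := (momMatrix (fun i => g i.castSucc) (fun i => etail n (v i))).det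
      have h1 : ENNReal.ofReal (2 ^ (n + 1) * d1) ≤ volume (zono v) :=
        ihN _ v (fun i => ⟨(hg _).1, by simpa [hv] using (hg i.castSucc).2⟩)
      have hle : ∀ i, ‖etail n (v i)‖ ≤ ‖v i‖ := by
        intro i
        rw [EuclideanSpace.norm_eq, EuclideanSpace.norm_eq (v i), Fin.sum_univ_succ (n := n)]
        refine Real.sqrt_le_sqrt ?_
        simp [etail, Fin.tail]
        positivity
      have h2 : ENNReal.ofReal (2 ^ n * d2) ≤ volume (etail n '' zono v) := by
        rw [image_zono]
        refine ihn N _ _ (fun i => ⟨(hg _).1, ?_⟩)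
        refine le_trans (mul_le_mul_of_nonneg_left (hle i) (hg _).1) ?_
        simpa [hv] using (hg i.castSucc).2
      have hgr : gl * r ^ 2 ≤ r := by
        have := mul_le_mul_of_nonneg_right (hg (Fin.last N)).2 (norm_nonneg (w (Fin.last N)))
        rw [one_mul, mul_assoc, ← sq] at this
        exact this
      have hsweep : volume (zono v) + ENNReal.ofReal (2 * (gl * r ^ 2)) * volume (etail n '' zono v)
          ≤ volume (zono (fun i => R (w i))) := by
        refine volume_add_sweep_le (isCompact_zono v) (convex_zono v)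
          (isCompact_zono _).measurableSet (mul_nonneg (hg _).1 (sq_nonneg r)) ?_
        rintro x ⟨s, hs, rfl⟩ t ht
        refine ⟨Fin.snoc s (t / r), fun i _ => ?_, ?_⟩
        · induction i using Fin.lastCases with
          | last =>
            rw [Fin.snoc_last, mem_Icc, ← abs_le]
            rw [abs_div, abs_of_nonneg (norm_nonneg (w (Fin.last N)))]
            exact div_le_one_of_le₀ (ht.trans hgr) (norm_nonneg _)
          | cast i => rw [Fin.snoc_castSucc]; exact hs i trivial
        · simp only [Fin.sum_univ_castSucc, Fin.snoc_castSucc, Fin.snoc_last, hR, smul_smul]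
          rcases eq_or_ne r 0 with h0 | h0
          · have : t = 0 := by
              have : |t| ≤ 0 := by simpa [h0] using ht
              simpa using this
            simp [this, hv]
          · rw [div_mul_cancel₀ _ h0]
      refine le_trans ?_ hsweep
      have hsum : (2 : ℝ) ^ (n + 1) * (d1 + gl * r ^ 2 * d2)
          = 2 ^ (n + 1) * d1 + 2 * (gl * r ^ 2) * (2 ^ n * d2) := by ring
      rw [hsum]
      refine le_trans ENNReal.ofReal_add_le (add_le_add h1 ?_)
      rw [ENNReal.ofReal_mul (mul_nonneg zero_le_two (mul_nonneg (hg _).1 (sq_nonneg r)))]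
      gcongr

end Vale.Agent.P237
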